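import Vale.Agent.P211.H129.Red

set_option linter.all false

/-! P211 (helper129): elimination of the ratio `s` (Poincaré columns) by AM-GM. -/

namespace Vale.Agent.P211.H129

theorem dt_self_nonneg (x : Fin 4 → ℝ) : 0 ≤ dt x x := Finset.sum_nonneg fun i _ => mul_self_nonneg _

theorem dt_comm (x y : Fin 4 → ℝ) : dt x y = dt y x := Finset.sum_congr rfl fun i _ => mul_comm _ _

/-- scalar AM-GM with lower bounds of the square roots -/
theorem amgm_scalar {s P0 Q0 r r' : ℝ} (hs : 0 < s) (h1 : r^2 ≤ P0) (h2 : r'^2 ≤ Q0) :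
    2 * r * r' ≤ s * P0 + Q0 / s := by
  have e1 : s * r^2 + r'^2 / s ≤ s * P0 + Q0 / s := by
    have := mul_le_mul_of_nonneg_left h1 hs.le
    have := div_le_div_of_nonneg_right h2 hs.le
    linarith
  have e2 : s * r^2 + r'^2 / s - 2 * r * r' = (s * r - r')^2 / s := by
    field_simp
    ring
  have e3 : 0 ≤ (s * r - r')^2 / s := by positivity
  linarith

theorem amgm_coord {s P1 Q1 ρ x y : ℝ} (hs : 0 < s) (hP : 0 ≤ P1) (hQ : 0 ≤ Q1)
    (h : ρ^2 ≤ P1 * Q1) : 2 * ρ * (x * y) ≤ s * (P1 * (x * x)) + (Q1 * (y * y)) / s := by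
  have h1 : |ρ| ≤ Real.sqrt P1 * Real.sqrt Q1 := by
    rw [← Real.sqrt_mul hP]
    exact Real.abs_le_sqrt h
  have a1 : (Real.sqrt P1)^2 = P1 := Real.sq_sqrt hP
  have a2 : (Real.sqrt Q1)^2 = Q1 := Real.sq_sqrt hQ
  have e := amgm_scalar (s := s) (P0 := P1 * (x * x)) (Q0 := Q1 * (y * y))
    (r := Real.sqrt P1 * |x|) (r' := Real.sqrt Q1 * |y|) hs (by
      rw [mul_pow, a1, sq_abs, sq]) (by rw [mul_pow, a2, sq_abs, sq])
  refine le_trans ?_ e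
  have e3 : ρ * (x * y) ≤ |ρ| * (|x| * |y|) := by
    rw [← abs_mul, ← abs_mul]; exact le_abs_self _
  have e4 : |ρ| * (|x| * |y|) ≤ (Real.sqrt P1 * Real.sqrt Q1) * (|x| * |y|) :=
    mul_le_mul_of_nonneg_right h1 (by positivity)
  nlinarith

theorem amgm_vec {s P1 Q1 ρ : ℝ} (g h : Fin 4 → ℝ) (hs : 0 < s) (hP : 0 ≤ P1) (hQ : 0 ≤ Q1)
    (hρ : ρ^2 ≤ P1 * Q1) : 2 * ρ * dt g h ≤ s * (P1 * dt g g) + (Q1 * dt h h) / s := by
  have : ∑ i, 2 * ρ * (g i * h i) ≤ ∑ i, (s * (P1 * (g i * g i)) + (Q1 * (h i * h i)) / s) :=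
    Finset.sum_le_sum fun i _ => amgm_coord hs hP hQ hρ
  have e1 : ∑ i, 2 * ρ * (g i * h i) = 2 * ρ * dt g h := by
    unfold dt; rw [Finset.mul_sum]
  have e2 : ∑ i, (s * (P1 * (g i * g i)) + (Q1 * (h i * h i)) / s) =
      s * (P1 * dt g g) + (Q1 * dt h h) / s := by
    unfold dt
    simp only [Fin.sum_univ_four]
    ring
  rw [e1, e2] at this
  exact this

/-- Elimination of the ratio: `s P + Q/s ≥ 2 r r' + 2 ρ g·h`. -/
theorem elim {s p P0 P1 P2 Q0 Q1 r r' ρ : ℝ} (g h : Fin 4 → ℝ) (hs : 0 < s)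
    (hP1 : 0 ≤ P1) (hP2 : 0 ≤ P2) (hQ1 : 0 ≤ Q1) (hr : r^2 ≤ P0) (hr' : r'^2 ≤ Q0)
    (hρ : ρ^2 ≤ P1 * Q1) (hp : dt g g ≤ p) :
    2 * r * r' + 2 * ρ * dt g h ≤
      s * (P0 + P1 * dt g g + P2 * (p - dt g g)) + (Q0 + Q1 * dt h h) / s := by
  have a1 := amgm_scalar hs hr hr'
  have a2 := amgm_vec g h hs hP1 hQ1 hρ
  have a3 : 0 ≤ s * (P2 * (p - dt g g)) :=
    mul_nonneg hs.le (mul_nonneg hP2 (by linarith))
  have : s * (P0 + P1 * dt g g + P2 * (p - dt g g)) + (Q0 + Q1 * dt h h) / s =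
      (s * P0 + Q0 / s) + (s * (P1 * dt g g) + (Q1 * dt h h) / s) +
        s * (P2 * (p - dt g g)) := by ring
  linarith

/-- from the matrix form (engine output) to `q3` -/
theorem q3_of_fin {a b c d e f : ℝ} (k r1 r2 r3 : ℝ) (hk : 0 < k) (h1 : 0 < r1) (h2 : 0 < r2)
    (h3 : 0 < r3) (Q : Fin 3 → Fin 3 → ℝ)
    (q00 : Q 0 0 = 2 * k * r1^2 * a) (q11 : Q 1 1 = 2 * k * r2^2 * b)
    (q22 : Q 2 2 = 2 * k * r3^2 * c) (q01 : Q 0 1 = k * (r1 * r2) * d)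
    (q10 : Q 1 0 = k * (r1 * r2) * d) (q02 : Q 0 2 = k * (r1 * r3) * e)
    (q20 : Q 2 0 = k * (r1 * r3) * e) (q12 : Q 1 2 = k * (r2 * r3) * f)
    (q21 : Q 2 1 = k * (r2 * r3) * f)
    (H : ∀ z : Fin 3 → ℝ, 0 ≤ ∑ i, ∑ j, Q i j * z i * z j) (x y w : ℝ) :
    0 ≤ q3 a b c d e f x y w := by
  refine q3_scale h1 h2 h3 (fun x y w => ?_) x y w
  have h := H ![x, y, w]
  simp only [Fin.sum_univ_three, Matrix.cons_val_zero, Matrix.cons_val_one, Matrix.cons_val_two,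
    Matrix.head_cons, Matrix.tail_cons, q00, q11, q22, q01, q10, q02, q20, q12, q21] at h
  have eq1 : 2 * k * r1^2 * a * x * x + k * (r1 * r2) * d * x * y + k * (r1 * r3) * e * x * w +
      (k * (r1 * r2) * d * y * x + 2 * k * r2^2 * b * y * y + k * (r2 * r3) * f * y * w) +
      (k * (r1 * r3) * e * w * x + k * (r2 * r3) * f * w * y + 2 * k * r3^2 * c * w * w) =
      (2 * k) * q3 (r1^2 * a) (r2^2 * b) (r3^2 * c) (r1 * r2 * d) (r1 * r3 * e) (r2 * r3 * f)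
        x y w := by
    unfold q3; ring
  have h' : 0 ≤ (2 * k) * q3 (r1^2 * a) (r2^2 * b) (r3^2 * c) (r1 * r2 * d) (r1 * r3 * e)
      (r2 * r3 * f) x y w := by
    rw [← eq1]; exact h
  exact nonneg_of_mul_nonneg_right h' (by positivity)

end Vale.Agent.P211.H129
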