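import Vale.Agent.P211.H626.Pw4

set_option linter.all false
set_option maxRecDepth 8000

/-! P211 (helper129): the two charts cover the domain. -/

namespace Vale.Agent.P211.H129

open Vale.Agent.P211 Vale.Agent.P211.S4 Vale.Agent.P211.H626

/-- `p ≤ 50` -/
theorem dom_p {N M p κ : ℝ} (h : Dom N M p κ) : p ≤ 50 := by
  have h1 := h.N0
  have h2 := h.ap
  have hM := h.M0
  have hN2 : N ≤ 2 := by linarith [h.NM]
  rcases le_total N 1 with hN | hN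
  · have h3 : -1 * N ^ 3 ≤ κ * N ^ 3 := mul_le_mul_of_nonneg_right h.k1 (by positivity)
    have h4 : N ^ 2 ≤ 1 := by nlinarith
    have h5 : N ^ 3 ≤ 1 := by nlinarith
    linarith
  · have h3 := h.kmin'
    have h4 : 1 ≤ N ^ 2 := by nlinarith
    linarith

/-- **The regular chart.** -/
theorem chartP {N M p κ : ℝ} (h : Dom N M p κ) : ∃ x y : ℝ, 0 ≤ x ∧ x ≤ 1 ∧ -1 ≤ y ∧ y ≤ 1 ∧
    N = x + x * y ∧ M = x - x * y := by
  have hN := h.N0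
  have hM := h.M0
  have hNM := h.NM
  rcases (show 0 ≤ N + M by linarith).lt_or_eq with h0 | h0
  · have h1 : N + M ≠ 0 := h0.ne'
    refine ⟨(N + M) / 2, (N - M) / (N + M), by linarith, by linarith, ?_, ?_, ?_, ?_⟩
    · rw [le_div_iff₀ h0]; linarith
    · rw [div_le_one h0]; linarith
    · field_simp; ring
    · field_simp; ring
  · refine ⟨0, 0, le_rfl, zero_le_one, by norm_num, by norm_num, by linarith, by linarith⟩

theorem Tht_pos {N M p κ : ℝ} (h : Dom N M p κ) : 0 < Tht N M := by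
  have h4 := h.NM
  unfold Tht
  rcases (show 0 ≤ 2 - N - M by linarith).lt_or_eq with h5 | h5
  · positivity
  · have h6 : N - M ≠ 0 := fun h6 => h.ne ⟨by linarith, by linarith⟩
    positivity

/-- **The corner chart.** -/
theorem chartC {N M p κ : ℝ} (h : Dom N M p κ) : ∃ t y q k : ℝ, 0 < t ∧ t ^ 2 = Tht N M ∧
    -1 ≤ y ∧ y ≤ 1 ∧ N = 1 - t ^ 2 * (1 - y ^ 2) / 12 + t * y / 2 ∧
    M = 1 - t ^ 2 * (1 - y ^ 2) / 12 - t * y / 2 ∧ p = t ^ 2 * q ∧ κ = 1 - t ^ 4 * k ∧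
    0 ≤ q ∧ q ≤ 20 - 12 * y ^ 2 ∧ 0 ≤ k ∧ 72 * N ^ 3 * k ≤ (1 - y ^ 2) ^ 2 * (2 * N + 2 - M) := by
  have hT := Tht_pos h
  have hNM := h.NM
  obtain ⟨t, ht, ht2⟩ : ∃ t : ℝ, 0 < t ∧ t ^ 2 = Tht N M :=
    ⟨Real.sqrt (Tht N M), Real.sqrt_pos.2 hT, Real.sq_sqrt hT.le⟩
  have ht0 := ht.ne'
  obtain ⟨y, hy⟩ : ∃ y : ℝ, N - M = t * y := ⟨(N - M) / t, by field_simp⟩
  have hT2 : t ^ 2 = 6 * (2 - N - M) + (t * y) ^ 2 := by rw [ht2, ← hy]; rfl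
  have hy2 : y ^ 2 ≤ 1 := by
    have h1 : t ^ 2 * y ^ 2 ≤ t ^ 2 * 1 := by nlinarith
    exact le_of_mul_le_mul_left h1 (by positivity)
  have hf : 2 - N - M = t ^ 2 * (1 - y ^ 2) / 6 := by linarith
  have e1 : N = 1 - t ^ 2 * (1 - y ^ 2) / 12 + t * y / 2 := by linarith
  have e2 : M = 1 - t ^ 2 * (1 - y ^ 2) / 12 - t * y / 2 := by linarith
  refine ⟨t, y, p / t ^ 2, (1 - κ) / t ^ 4, ht, ht2, by nlinarith, by nlinarith, e1, e2,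
    by field_simp, by field_simp; ring, div_nonneg h.p0 (by positivity), ?_,
    div_nonneg (by linarith [h.k2]) (by positivity), ?_⟩
  · rw [div_le_iff₀ (by positivity)]
    have h1 := h.ap2
    have h2 : (N - M) ^ 2 = t ^ 2 * y ^ 2 := by rw [hy]; ring
    rw [h2] at h1
    linarith
  · rw [← mul_div_assoc, div_le_iff₀ (by positivity)]
    have h1 := h.kmin
    have h3 : (2 - N - M) ^ 2 * (2 * N + 2 - M) = (t ^ 2 * (1 - y ^ 2) / 6) ^ 2 * (2 * N + 2 - M) := by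
      rw [hf]
    have h4 : (2 - N - M) ^ 2 * (2 * N + 2 - M) = (2 - M) ^ 3 - 3 * N ^ 2 * (2 - M) + 2 * N ^ 3 := by
      ring
    rw [h4] at h3
    nlinarith

theorem kbpos {N z e : ℝ} (hz0 : 0 ≤ z) (hz1 : z ≤ 1) (he : 2 * e ≤ z / 6) (hN : 11 / 12 ≤ N) :
    z ^ 2 * (3 * N + 2 * e) ≤ 36 / 7 * N ^ 3 := by
  have h1 : z ^ 2 ≤ 1 := by nlinarith
  have h2 : z ^ 2 * (3 * N + 2 * e) ≤ 1 * (3 * N + 1 / 6) := by
    have : 3 * N + 2 * e ≤ 3 * N + 1 / 6 := by linarith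
    have h4 : z ^ 2 * (3 * N + 2 * e) ≤ z ^ 2 * (3 * N + 1 / 6) :=
      mul_le_mul_of_nonneg_left this (by positivity)
    have h5 : z ^ 2 * (3 * N + 1 / 6) ≤ 1 * (3 * N + 1 / 6) :=
      mul_le_mul_of_nonneg_right h1 (by linarith)
    linarith
  have h3 : (11 / 12) ^ 2 ≤ N ^ 2 := by nlinarith
  nlinarith
theorem kbneg {N N1 y z e : ℝ} (hz : z = 1 - y ^ 2) (y0 : -1 ≤ y) (y1 : y ≤ 0) (he : 2 * e ≤ z / 6)
    (hN1 : N1 = (11 + 6 * y + y ^ 2) / 12) (hN : N1 ≤ N) :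
    z ^ 2 * (3 * N + 2 * e) ≤ 36 / 7 * N ^ 3 := by
  have hz0 : 0 ≤ z := by rw [hz]; nlinarith
  have h5 : 4 / 9 * z ≤ N1 := by rw [hN1, hz]; nlinarith [sq_nonneg (y + 1/2)]
  have h6 : (4 / 9) ^ 2 * z ^ 2 ≤ N1 ^ 2 := by nlinarith
  have hN10 : 0 ≤ N1 := by linarith [mul_nonneg (by norm_num : (0:ℝ) ≤ 4/9) hz0]
  have h7 : z ^ 2 * (3 * N1) + z ^ 3 / 6 ≤ 36 / 7 * N1 ^ 3 := by
    rw [hN1, hz]
    have key : ∀ a b : ℝ, 0 ≤ a → 0 ≤ b → 0 ≤ 9/14 * b ^ 6 + 36/7 * a ^ 1 * b ^ 5 + 45/4 * a ^ 2 * b ^ 4 + 54/7 * a ^ 3 * b ^ 3 + 9/8 * a ^ 4 * b ^ 2 + 9/7 * a ^ 5 * b ^ 1 + 117/112 * a ^ 6 := by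
      intro a b ha hb
      positivity
    have h := key (y + 1) (-y) (by linarith) (by linarith)
    refine le_of_sub_nonneg (h.trans (le_of_eq ?_))
    ring
  have h8 : 0 ≤ (N - N1) * (36 / 7 * (N ^ 2 + N * N1 + N1 ^ 2) - 3 * z ^ 2) := by
    refine mul_nonneg (by linarith) ?_
    have : N1 ^ 2 ≤ N ^ 2 := by nlinarith
    have : N1 ^ 2 ≤ N * N1 := by nlinarith
    nlinarith
  have h9 : z ^ 2 * (2 * e) ≤ z ^ 2 * (z / 6) := mul_le_mul_of_nonneg_left he (by positivity)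
  nlinarith

/-- bounds in the corner chart -/
theorem chartC_N {t y : ℝ} (t0 : 0 ≤ t) (t1 : t ≤ 1) (y0 : -1 ≤ y) (y1 : y ≤ 1) :
    5 / 12 ≤ 1 - t ^ 2 * (1 - y ^ 2) / 12 + t * y / 2 := by
  have h1 : t ^ 2 ≤ 1 := by nlinarith
  have h2 : 0 ≤ 1 - y ^ 2 := by nlinarith
  have h3 : t ^ 2 * (1 - y ^ 2) ≤ 1 := by nlinarith [sq_nonneg y]
  have h4 : -1 ≤ t * y := by nlinarith
  linarith

theorem chartC_k {t y k N M : ℝ} (t0 : 0 ≤ t) (t1 : t ≤ 1) (y0 : -1 ≤ y) (y1 : y ≤ 1)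
    (hN : N = 1 - t ^ 2 * (1 - y ^ 2) / 12 + t * y / 2)
    (hM : M = 1 - t ^ 2 * (1 - y ^ 2) / 12 - t * y / 2)
    (hk : 72 * N ^ 3 * k ≤ (1 - y ^ 2) ^ 2 * (2 * N + 2 - M)) : k ≤ 1 / 14 := by
  have hN0 : 5 / 12 ≤ N := by rw [hN]; exact chartC_N t0 t1 y0 y1
  have h1 : (1 - y ^ 2) ^ 2 * (2 * N + 2 - M) ≤ 36 / 7 * N ^ 3 := by
    have hz0 : 0 ≤ 1 - y ^ 2 := by nlinarith
    have ht : t ^ 2 ≤ 1 := by nlinarith
    have he : 2 * (t ^ 2 * (1 - y ^ 2) / 12) ≤ (1 - y ^ 2) / 6 := by nlinarith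
    have e1 : 2 * N + 2 - M = 3 * N + 2 * (t ^ 2 * (1 - y ^ 2) / 12) := by rw [hN, hM]; ring
    rw [e1]
    rcases le_total y 0 with h | h
    · refine kbneg rfl y0 h he rfl ?_
      rw [hN]
      nlinarith
    · refine kbpos hz0 (by nlinarith [sq_nonneg y]) he ?_
      rw [hN]
      nlinarith [mul_nonneg t0 h, sq_nonneg y]
  have h2 : 72 * N ^ 3 * k ≤ 72 * N ^ 3 * (1 / 14) := by linarith
  exact le_of_mul_le_mul_left h2 (by positivity)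

end Vale.Agent.P211.H129
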