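import Vale.Agent.P211.H626.Sem
import Vale.Agent.P211.H237.Tree
import Vale.Agent.P211.H237.Psd4
import Vale.Agent.P211.H129.Chart

set_option linter.all false

/-! P211 (helper129): `0 ≤ B0 + p B1` on the domain from two subdivision trees in two variables. -/

namespace Vale.Agent.P211.H129

open MvPolynomial Vale.Agent.P211 Vale.Agent.P211.S4 Vale.Agent.P211.H237 Vale.Agent.P211.H626

/-! ### two-variable trees -/

/-- all listed residues pass the sign test -/
noncomputable def chkL (W m : ℕ) (outs : List ℕ) (l : List ℕ) : Bool :=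
  List.rec true (fun i _ ih => chk W m (nth outs i) && ih) l

theorem chkL_mem {W m : ℕ} {outs : List ℕ} {l : List ℕ} (h : chkL W m outs l = true) :
    ∀ i ∈ l, chk W m (outs.getD i 0) = true := by
  induction l with
  | nil => intro i hi; simp at hi
  | cons a l ih =>
    have h' : (chk W m (nth outs a) && chkL W m outs l) = true := h
    rw [Bool.and_eq_true] at h'
    intro i hi
    rcases List.mem_cons.mp hi with rfl | hi
    · rw [← nth_eq]; exact h'.1
    · exact ih h'.2 i hi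

/-- leaf test: the number of the leaf selects a list of table entries which have to be `≥ 0` -/
noncomputable def lfB (T : Tab) (xq yq : ℕ) (alts : List (List ℕ)) (b : Box) (d : ℕ) : Bool :=
  Nat.blt d alts.length && (T.fam.okC (b.cell xq yq) &&
    chkL T.fam.W T.fam.msk (T.outs T.fam.W (b.cell xq yq)) (alts.getD d []))

/-- static test -/
def okT (T : Tab) : Bool :=
  T.okB && Nat.blt (T.n0 * (T.nx ^ T.D * T.ny ^ T.E)) (2 ^ T.β)

theorem tree2_sound {T : Tab} {xq yq : ℕ} {alts : List (List ℕ)} (hT : okT T = true) {t : Tr}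
    {r : Box} (h : t.ok (lfB T xq yq alts) r = true) (hr : r.pa = 0) (hr' : r.pb < 0) {x y : ℝ}
    (h1 : (r.xa : ℝ) ≤ xq * x) (h2 : xq * x ≤ r.xb) (h3 : (r.ya : ℝ) ≤ yq * y)
    (h4 : yq * y ≤ r.yb) : ∃ l ∈ alts, ∀ i ∈ l, 0 ≤ T.vals x y i := by
  unfold okT at hT
  rw [Bool.and_eq_true, Nat.blt_eq] at hT
  refine Tr.ok_sound (lfB T xq yq alts) (fun x y _ => ∃ l ∈ alts, ∀ i ∈ l, 0 ≤ T.vals x y i)
    xq yq 1 ?_ t r h x y 0 ⟨h1, h2, h3, h4, ?_, Or.inl hr'⟩
  · intro b d hb x y p hin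
    unfold lfB at hb
    rw [Bool.and_eq_true, Bool.and_eq_true, Nat.blt_eq] at hb
    obtain ⟨hd, hc, hl⟩ := hb
    refine ⟨alts.getD d [], ?_, fun i hi => ?_⟩
    · rw [List.getD_eq_getElem _ _ hd]; exact List.getElem_mem hd
    · have h5 := Tab.rep_outs hT.1 hc i
      rw [← T.rev_pol]
      exact h5.nonneg hT.2 (chkL_mem hl i hi) x y hin.cell
  · rw [hr]; simp

/-! ### the certificate -/

/-- the expressions of `Θ^K B0`, `Θ^K B1` in a chart -/
def eB (h : Ch) (K : ℕ) (l : List Te) : RE := sumR (Te.hV h K) l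

/-- data of the verification -/
structure BD where
  K : ℕ
  /-- corner chart: entries `0 : B0`, `1 : B0 + (20 - 12 y²) x² B1` -/
  TC : Tab
  zC : ZP
  sC : ℤ
  gC : ℤ
  mC : ℕ
  /-- polar chart: entries `0 : B0`, `1 : 22 B0 + (1236 - 165 N²) B1`, `2 : B0 + cap B1`,
  `3 : 1 - Θ`, `4 : 22 B0 + (884 + 99 N² + 88 N³) B1` -/
  TP : Tab
  zP : ZP
  sP : ℤ
  q : ℕ
  tC : Tr
  tP : Tr

namespace BD

variable (b : BD) (d : CD)

/-- `g x^m` -/
def mlC : PE := .mul (.c b.gC) (.pow .x b.mC)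

noncomputable def ok : Bool :=
  (okE b.K d.B0 && okE b.K d.B1) &&
  (decide (0 < b.sC) && (decide (0 < b.gC) && decide (0 < b.sP))) &&
  (Nat.blt 0 b.q && (okT b.TC && okT b.TP)) &&
  (zt b.zC b.TC 0 b.mlC (RE.c b.sC * eB chC b.K d.B0) &&
    zt b.zC b.TC 1 b.mlC (RE.c b.sC * (eB chC b.K d.B0 + (RE.c 20 + RE.c (-12) * RE.y ^ 2) *
      RE.x ^ 2 * eB chC b.K d.B1))) &&
  (zt b.zP b.TP 0 (.c b.sP) (RE.c 1 * eB chP b.K d.B0) &&
    (zt b.zP b.TP 1 (.c b.sP) (RE.c 22 * eB chP b.K d.B0 + (RE.c 1236 + RE.c (-165) * chP.n ^ 2) *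
      eB chP b.K d.B1) &&
    (zt b.zP b.TP 2 (.c b.sP) (eB chP b.K d.B0 + (RE.c 120 * chP.f + RE.c 8 * chP.xi ^ 2) *
      eB chP b.K d.B1) &&
    (zt b.zP b.TP 3 (.c 1) (RE.c 1 + RE.c (-1) * chP.th) &&
    zt b.zP b.TP 4 (.c b.sP) (RE.c 22 * eB chP b.K d.B0 + (RE.c 884 + (RE.c 99 * chP.n ^ 2 +
      RE.c 88 * chP.n ^ 3)) * eB chP b.K d.B1)))))

/-- the tree of the corner chart -/
noncomputable def okC : Bool :=
  b.tC.ok (lfB b.TC b.q b.q [[0, 1]]) ⟨0, b.q, -b.q, b.q, 0, -1⟩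

/-- the tree of the polar chart -/
noncomputable def okP : Bool :=
  b.tP.ok (lfB b.TP b.q b.q [[0, 1], [0, 2], [3], [0, 4]]) ⟨0, b.q, -b.q, b.q, 0, -1⟩

end BD

theorem cap1 {N M p κ : ℝ} (h : Dom N M p κ) : p ≤ (1236 - 165 * N ^ 2) / 22 := by
  have h1 := h.ap
  have h2 := h.kmin'
  rw [le_div_iff₀ (by norm_num)]
  linarith

theorem cap2 {N M p κ : ℝ} (h : Dom N M p κ) : p ≤ 120 * (2 - N - M) + 8 * (N - M) ^ 2 :=
  h.ap2.trans (le_of_eq (by ring))

theorem cap4 {N M p κ : ℝ} (h : Dom N M p κ) : p ≤ (884 + 99 * N ^ 2 + 88 * N ^ 3) / 22 := by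
  have h1 := h.ap
  have hN0 := h.N0
  have h2 : -1 * N ^ 3 ≤ κ * N ^ 3 := mul_le_mul_of_nonneg_right h.k1 (by positivity)
  rw [le_div_iff₀ (by norm_num)]
  linarith

theorem scale22 {u v c : ℝ} (h : 0 ≤ 22 * u + c * v) : 0 ≤ u + c / 22 * v := by
  have e : 22 * u + c * v = 22 * (u + c / 22 * v) := by ring
  rw [e] at h
  exact (mul_nonneg_iff_of_pos_left (by norm_num)).1 h

theorem bpos_of {b : BD} {d : CD} (h : b.ok d = true) (hC : b.okC = true) (hP : b.okP = true) :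
    ∀ N M p κ : ℝ, Dom N M p κ → 0 ≤ d.cert.B0.f N M + p * d.cert.B1.f N M := by
  intro N M p κ hD
  have hT := Tht_pos hD
  have hp0 := hD.p0
  unfold BD.ok at h
  simp only [Bool.and_eq_true, decide_eq_true_eq, Nat.blt_eq] at h
  obtain ⟨⟨⟨⟨⟨hE0, hE1⟩, hsC, hgC, hsP⟩, hq, hTC, hTP⟩, z0, z1⟩, y0, y1, y2, y3, y4⟩ := h
  have hgC' : (0 : ℝ) < b.gC := by exact_mod_cast hgC
  have hq' : (0 : ℝ) < b.q := by exact_mod_cast hq
  have hsC' : (0 : ℝ) < b.sC := by exact_mod_cast hsC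
  have hsP' : (0 : ℝ) < b.sP := by exact_mod_cast hsP
  -- reduction to the numerators
  suffices key : 0 ≤ Tht N M ^ b.K * (fnL d.B0).f N M + p * (Tht N M ^ b.K * (fnL d.B1).f N M) by
    have e : Tht N M ^ b.K * (fnL d.B0).f N M + p * (Tht N M ^ b.K * (fnL d.B1).f N M) =
        Tht N M ^ b.K * ((fnL d.B0).f N M + p * (fnL d.B1).f N M) := by ring
    rw [e] at key
    have h1 := (mul_nonneg_iff_of_pos_left (pow_pos hT b.K)).1 key
    show 0 ≤ 1 / (d.D : ℝ) * (fnL d.B0).f N M + p * (1 / (d.D : ℝ) * (fnL d.B1).f N M)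
    have e2 : 1 / (d.D : ℝ) * (fnL d.B0).f N M + p * (1 / (d.D : ℝ) * (fnL d.B1).f N M) =
        1 / (d.D : ℝ) * ((fnL d.B0).f N M + p * (fnL d.B1).f N M) := by ring
    rw [e2]
    positivity
  have aff : ∀ u v P : ℝ, 0 ≤ u → 0 ≤ u + P * v → p ≤ P → 0 ≤ u + p * v := by
    intro u v P hu huv hpP
    rcases le_or_gt 0 v with hv | hv
    · positivity
    · nlinarith
  rcases le_or_gt (Tht N M) 1 with hle | hgt
  · -- corner chart
    obtain ⟨t, y, q, k, ht, ht2, hy1, hy2, hN, hM, hp, -, hq0, hq1, -⟩ := chartC hD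
    have ht1 : t ≤ 1 := by nlinarith
    have hat := chC_at hN hM
    have v0 := val_sumV hat hT.ne' d.B0 hE0
    have v1 := val_sumV hat hT.ne' d.B1 hE1
    obtain ⟨l, hl, hl'⟩ := tree2_sound hTC hC rfl (by show (-1 : ℤ) < 0; norm_num)
      (x := t) (y := y) (by show ((0 : ℤ) : ℝ) ≤ _; push_cast; positivity)
      (by show (b.q : ℝ) * t ≤ ((b.q : ℤ) : ℝ); push_cast; nlinarith)
      (by show ((-(b.q : ℤ) : ℤ) : ℝ) ≤ _; push_cast; nlinarith)
      (by show (b.q : ℝ) * y ≤ ((b.q : ℤ) : ℝ); push_cast; nlinarith)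
    rw [List.mem_singleton] at hl
    subst hl
    have w0 := hl' 0 (by simp)
    have w1 := hl' 1 (by simp)
    have s0 := zt_sound z0 t y
    have s1 := zt_sound z1 t y
    have hm : 0 < (b.mlC).ev t y := by
      show 0 < (b.gC : ℝ) * t ^ b.mC
      positivity
    simp only [RE.val_add, RE.val_mul, RE.val_c, RE.val_x, RE.val_y, RE.val_pow, eB] at s0 s1
    rw [v0, v1] at s1
    rw [v0] at s0
    have u0 : 0 ≤ Tht N M ^ b.K * (fnL d.B0).f N M := by
      have := mul_nonneg hm.le w0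
      rw [s0] at this
      exact (mul_nonneg_iff_of_pos_left hsC').1 this
    have u1 := mul_nonneg hm.le w1
    rw [s1] at u1
    have u1 := (mul_nonneg_iff_of_pos_left hsC').1 u1
    refine aff _ _ ((20 - 12 * y ^ 2) * t ^ 2) u0 ?_ ?_
    · refine u1.trans (le_of_eq ?_)
      push_cast
      ring
    · rw [hp]
      nlinarith [sq_nonneg t]
  · -- polar chart
    obtain ⟨x, y, hx0, hx1, hy1, hy2, hN, hM⟩ := chartP hD
    have hat := chP_at hN hM
    have v0 := val_sumV hat hT.ne' d.B0 hE0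
    have v1 := val_sumV hat hT.ne' d.B1 hE1
    obtain ⟨l, hl, hl'⟩ := tree2_sound hTP hP rfl (by show (-1 : ℤ) < 0; norm_num)
      (x := x) (y := y) (by show ((0 : ℤ) : ℝ) ≤ _; push_cast; positivity)
      (by show (b.q : ℝ) * x ≤ ((b.q : ℤ) : ℝ); push_cast; nlinarith)
      (by show ((-(b.q : ℤ) : ℤ) : ℝ) ≤ _; push_cast; nlinarith)
      (by show (b.q : ℝ) * y ≤ ((b.q : ℤ) : ℝ); push_cast; nlinarith)
    have s0 := zt_sound y0 x y
    have s1 := zt_sound y1 x y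
    have s2 := zt_sound y2 x y
    have s3 := zt_sound y3 x y
    have s4 := zt_sound y4 x y
    have hm : (PE.c b.sP).ev x y = (b.sP : ℝ) := rfl
    have hm1 : (PE.c 1).ev x y = ((1 : ℤ) : ℝ) := rfl
    simp only [RE.val_add, RE.val_mul, RE.val_c, RE.val_x, RE.val_y, RE.val_pow, eB, hat.f,
      hat.xi, hat.th, hat.n, hm, hm1] at s0 s1 s2 s3 s4
    rw [v0] at s0
    rw [v0, v1] at s1 s2 s4
    have u0 : ∀ i, i = 0 → 0 ≤ b.TP.vals x y i → 0 ≤ Tht N M ^ b.K * (fnL d.B0).f N M := by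
      rintro i rfl hw
      have := mul_nonneg hsP'.le hw
      rw [s0] at this
      push_cast at this
      linarith
    simp only [List.mem_cons, List.mem_nil_iff, or_false] at hl
    clear z0 z1 y0 y1 y2 y3 y4 hE0 hE1 hTC hTP v0 v1 s0 hm hm1 hat
    rcases hl with rfl | rfl | rfl | rfl
    · have w0 := hl' 0 (by simp)
      have w1 := mul_nonneg hsP'.le (hl' 1 (by simp))
      rw [s1] at w1
      push_cast at w1
      exact aff _ _ _ (u0 0 rfl w0) (scale22 (w1.trans (le_of_eq (by ring)))) (cap1 hD)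
    · have w0 := hl' 0 (by simp)
      have w1 := mul_nonneg hsP'.le (hl' 2 (by simp))
      rw [s2] at w1
      push_cast at w1
      exact aff _ _ _ (u0 0 rfl w0) w1 (cap2 hD)
    · exfalso
      have w3 := hl' 3 (by simp)
      push_cast at s3
      linarith only [w3, s3, hgt]
    · have w0 := hl' 0 (by simp)
      have w1 := mul_nonneg hsP'.le (hl' 4 (by simp))
      rw [s4] at w1
      push_cast at w1
      exact aff _ _ _ (u0 0 rfl w0) (scale22 (w1.trans (le_of_eq (by ring)))) (cap4 hD)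

end Vale.Agent.P211.H129
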