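import Vale.Agent.P211.H129.BPos
import Vale.Agent.P211.H626.D.V1

set_option linter.all false

/-! P211 (helper129): `B0 + p B1 ≥ 0` for the certificate of a vertex. Generated. -/

namespace Vale.Agent.P211.H129.BV1

open Vale.Agent.P211.H237 Vale.Agent.P211.H626 Vale.Agent.P211.H129

def TC : Tab where
  cf := [[[.p 484574400, .p 0, .m 160934688, .p 0, .m 53307072, .p 0, .p 0, .p 0, .p 0], [.p 0, .p 391229136, .p 0, .m 77221728, .p 0, .m 110688768, .p 0, .p 0, .p 0], [.p 180593208, .p 0, .p 116047728, .p 0, .m 93875616, .p 0, .m 20053944, .p 0, .p 0], [.p 0, .p 248400720, .p 0, .m 81643968, .p 0, .p 0, .p 0, .p 0, .p 0], [.p 9947364, .p 0, .p 11704560, .p 0, .p 25836540, .p 0, .p 0, .p 0, .p 0], [.p 0, .p 27848052, .p 0, .m 74438208, .p 0, .p 46590156, .p 0, .p 0, .p 0], [.m 7012918, .p 0, .p 36881934, .p 0, .m 52725114, .p 0, .p 22856098, .p 0, .p 0], [.p 0, .m 4661116, .p 0, .p 13983348, .p 0, .m 13983348, .p 0,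 .p 4661116, .p 0], [.p 400133, .p 0, .m 1600532, .p 0, .p 2400798, .p 0, .m 1600532, .p 0, .p 400133]],
    [[.p 6934101120, .p 0, .m 4496061600, .p 0, .p 225939456, .p 0, .p 0, .p 0, .p 0], [.p 0, .m 1158596784, .p 0, .p 523956384, .p 0, .p 86541696, .p 0, .p 0, .p 0], [.p 5085791928, .p 0, .m 6861744144, .p 0, .p 2628288288, .p 0, .m 200870136, .p 0, .p 0], [.p 0, .p 989816400, .p 0, .m 526493376, .p 0, .p 0, .p 0, .p 0, .p 0], [.m 859068156, .p 0, .p 1750321392, .p 0, .m 704487972, .p 0, .p 0, .p 0, .p 0], [.p 0, .m 1007578188, .p 0, .p 1298877696, .p 0, .m 404645940, .p 0, .p 0, .p 0], [.p 119319962, .p 0, .m 248618274, .p 0, .p 156462774, .p 0, .m 27164462, .p 0, .p 0], [.p 0, .m 11012236, .p 0, .p 30496260, .p 0, .m 27955812, .p 0, .p 8471788, .p 0], [.p 2494893, .p 0, .m 9141668, .p 0, .p 12455646, .p 0, .m 7465860, .p 0, .p 1656989]]]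
  β := 147
  D := 8
  E := 8
  nx := 126
  ny := 126
  n0 := 36405897280

def TP : Tab where
  cf := [[[.p 21912408, .p 0, .p 0, .p 0, .p 0, .p 0, .p 0, .p 0, .p 0, .p 0, .p 0], [.m 199293480, .m 112041864, .p 0, .p 0, .p 0, .p 0, .p 0, .p 0, .p 0, .p 0, .p 0], [.p 1571216472, .p 2417780016, .p 995887968, .p 0, .p 0, .p 0, .p 0, .p 0, .p 0, .p 0, .p 0], [.m 4388061240, .m 7858285416, .m 3732626280, .m 117750336, .p 0, .p 0, .p 0, .p 0, .p 0, .p 0, .p 0], [.p 5441514768, .p 10253799648, .p 5970131208, .p 1768917024, .p 710505056, .p 0, .p 0, .p 0, .p 0, .p 0, .p 0], [.m 3138718752, .m 6043653792, .m 5164438272, .m 4040337504, .m 1888874600, .m 41772696, .p 0, .p 0, .p 0, .p 0, .p 0], [.p 691429824, .p 1342401408, .p 2391998592, .p 3284105088, .p 1806124304, .p 369545696, .p 147520144, .p 0, .p 0, .p 0, .p 0], [.p 0, .p 0, .m 460953216, .m 894934272, .m 702077216, .m 473163552, .m 225250016, .m 4307296, .p 0, .p 0, .p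 0], [.p 0, .p 0, .p 0, .p 0, .p 76825536, .p 149155712, .p 84496960, .p 16659648, .p 7035328, .p 0, .p 0], [.p 0, .p 0, .p 0, .p 0, .p 0, .p 0, .p 0, .p 0, .p 0, .p 0, .p 0], [.p 0, .p 0, .p 0, .p 0, .p 0, .p 0, .p 0, .p 0, .p 0, .p 0, .p 0]],
    [[.p 87136761132, .p 0, .p 0, .p 0, .p 0, .p 0, .p 0, .p 0, .p 0, .p 0, .p 0], [.m 364522744044, .m 133557271200, .p 0, .p 0, .p 0, .p 0, .p 0, .p 0, .p 0, .p 0, .p 0], [.p 635692742937, .p 437728278690, .p 77989711329, .p 0, .p 0, .p 0, .p 0, .p 0, .p 0, .p 0, .p 0], [.m 555926212161, .m 492048015894, .m 220645453833, .m 83810524932, .p 0, .p 0, .p 0, .p 0, .p 0, .p 0, .p 0], [.p 224818560144, .p 173236484196, .p 196851810354, .p 174168913944, .p 25647393242, .p 0, .p 0, .p 0, .p 0, .p 0, .p 0], [.m 19949309496, .p 50887300752, .m 23522885064, .m 74596917408, .m 25624249952, .m 9941461392, .p 0, .p 0, .p 0, .p 0, .p 0], [.m 9738373392, .m 42481448064, .m 39527023488, .m 42115567488,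 .m 29966889892, .m 590866216, .p 2679849292, .p 0, .p 0, .p 0, .p 0], [.p 2488574880, .p 6234671520, .p 11254671648, .p 29816261376, .p 35142592840, .p 17652876240, .p 5132948104, .p 1571795744, .p 0, .p 0, .p 0], [.p 0, .p 0, .m 1659049920, .m 4156447680, .m 4810006608, .m 7102507456, .m 8002900400, .m 3378090144, .m 109154144, .p 0, .p 0], [.p 0, .p 0, .p 0, .p 0, .p 276508320, .p 692741280, .p 713496960, .p 627971520, .p 503875680, .p 173168160, .p 0], [.p 0, .p 0, .p 0, .p 0, .p 0, .p 0, .p 0, .p 0, .p 0, .p 0, .p 0]],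
    [[.p 16848065448, .p 0, .p 0, .p 0, .p 0, .p 0, .p 0, .p 0, .p 0, .p 0, .p 0], [.m 86955211080, .m 25566867144, .p 0, .p 0, .p 0, .p 0, .p 0, .p 0, .p 0, .p 0, .p 0], [.p 190470682152, .p 107032426416, .p 16374939360, .p 0, .p 0, .p 0, .p 0, .p 0, .p 0, .p 0, .p 0], [.m 221894767800, .m 171060699816, .m 69222212328, .m 22680699840, .p 0, .p 0, .p 0, .p 0, .p 0, .p 0, .p 0], [.p 140269181328, .p 126463112928, .p 116353305864, .p 71829720480, .p 6160356832, .p 0, .p 0, .p 0, .p 0, .p 0, .p 0], [.m 43049125152, .m 40039496352, .m 93636144384, .m 78075198048, .m 19093494696, .m 6908534936, .p 0, .p 0, .p 0, .p 0, .p 0], [.p 4311175104, .p 3171523968, .p 33486860928, .p 31284409728, .p 21043156880, .p 14737630688, .p 1024546064, .p 0, .p 0, .p 0, .p 0], [.p 0, .p 0, .m 3356749440, .m 2358232320, .m 8886127136, .m 8354225952, .m 1874143200, .m 830974816, .p 0, .p 0, .p 0], [.p 0, .p 0, .p 0, .p 0, .p 800774592, .p 514980224,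 .p 927351360, .p 892393152, .p 58222016, .p 0, .p 0], [.p 0, .p 0, .p 0, .p 0, .p 0, .p 0, .m 53625856, .m 27098112, .m 30553088, .m 33584128, .p 0], [.p 0, .p 0, .p 0, .p 0, .p 0, .p 0, .p 0, .p 0, .p 0, .p 0, .p 0]],
    [[.m 11, .p 0, .p 0, .p 0, .p 0, .p 0, .p 0, .p 0, .p 0, .p 0, .p 0], [.p 12, .p 0, .p 0, .p 0, .p 0, .p 0, .p 0, .p 0, .p 0, .p 0, .p 0], [.p 0, .p 0, .m 4, .p 0, .p 0, .p 0, .p 0, .p 0, .p 0, .p 0, .p 0], [.p 0, .p 0, .p 0, .p 0, .p 0, .p 0, .p 0, .p 0, .p 0, .p 0, .p 0], [.p 0, .p 0, .p 0, .p 0, .p 0, .p 0, .p 0, .p 0, .p 0, .p 0, .p 0], [.p 0, .p 0, .p 0, .p 0, .p 0, .p 0, .p 0, .p 0, .p 0, .p 0, .p 0], [.p 0, .p 0, .p 0, .p 0, .p 0, .p 0, .p 0, .p 0, .p 0, .p 0, .p 0], [.p 0, .p 0, .p 0, .p 0, .p 0, .p 0, .p 0, .p 0, .p 0, .p 0, .p 0], [.p 0, .p 0, .p 0, .p 0, .p 0, .p 0, .p 0, .p 0, .p 0, .p 0, .p 0], [.p 0, .p 0, .p 0, .p 0, .p 0, .p 0, .p 0, .p 0, .p 0, .p 0, .p 0], [.p 0, .p 0, .p 0, .p 0,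 .p 0, .p 0, .p 0, .p 0, .p 0, .p 0, .p 0]],
    [[.p 62458403340, .p 0, .p 0, .p 0, .p 0, .p 0, .p 0, .p 0, .p 0, .p 0, .p 0], [.m 261959089356, .m 96223527456, .p 0, .p 0, .p 0, .p 0, .p 0, .p 0, .p 0, .p 0, .p 0], [.p 479712616305, .p 358644744402, .p 77232985337, .p 0, .p 0, .p 0, .p 0, .p 0, .p 0, .p 0, .p 0], [.m 482158422417, .m 532122567246, .m 271949297545, .m 77526749852, .p 0, .p 0, .p 0, .p 0, .p 0, .p 0, .p 0], [.p 276818014728, .p 388611596940, .p 335876767722, .p 177340528368, .p 25338694698, .p 0, .p 0, .p 0, .p 0, .p 0, .p 0], [.m 79408831992, .m 95766311760, .m 106411855448, .m 104660351952, .m 60260366544, .m 19888305728, .p 0, .p 0, .p 0, .p 0, .p 0], [.m 5948881488, .m 66464925120, .m 92355519296, .m 33809425600, .p 13497440380, .p 8190681240, .m 843540116, .p 0, .p 0, .p 0, .p 0], [.p 11813430816, .p 47973388320, .p 71204611104, .p 70728370944, .p 65638143464, .p 38695375344, .p 6297923432, .m 1444672128,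 .p 0, .p 0, .p 0], [.m 1327239936, .m 4652398080, .m 13740737472, .m 35319708864, .m 48897420176, .m 34098203392, .m 13758740336, .m 4977288800, .m 1267527008, .p 0, .p 0], [.p 0, .p 0, .p 884826624, .p 3101598720, .p 5517623584, .p 8589209376, .p 10369644032, .p 6879982912, .p 1835559264, .p 36862496, .p 0], [.p 0, .p 0, .p 0, .p 0, .m 147471104, .m 516933120, .m 749993728, .m 715449856, .m 603651840, .m 361090048, .m 92356352]]]
  β := 182
  D := 10
  E := 10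
  nx := 126
  ny := 126
  n0 := 5103717875048

def bd : BD where
  K := 3
  TC := TC
  zC := ⟨51, 12, 8, 857970457362432⟩
  sC := 432
  gC := 1
  mC := 4
  TP := TP
  zP := ⟨47, 10, 10, 53236247812736⟩
  sP := 4
  q := 63
  tC := (.leaf 0)
  tP := (.sy (0) (.leaf 0) (.sx (31) (.leaf 0) (.leaf 0)))

theorem ok : bd.ok v1.d = true := by decide +kernel
theorem okC : bd.okC = true := by decide +kernel
theorem okP : bd.okP = true := by decide +kernel

theorem bpos : ∀ N M p κ : ℝ, Dom N M p κ → 0 ≤ v1.d.cert.B0.f N M +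
    p * v1.d.cert.B1.f N M :=
  bpos_of ok okC okP

end Vale.Agent.P211.H129.BV1
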