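import Vale.Agent.P211.H129.BPos
import Vale.Agent.P211.H626.D.V2

set_option linter.all false

/-! P211 (helper129): `B0 + p B1 ≥ 0` for the certificate of a vertex. Generated. -/

namespace Vale.Agent.P211.H129.BV2

open Vale.Agent.P211.H237 Vale.Agent.P211.H626 Vale.Agent.P211.H129

def TC : Tab where
  cf := [[[.p 96396048, .p 0, .p 90821952, .p 0, .m 70307568, .p 0, .p 0, .p 0, .p 0], [.p 0, .p 65343888, .p 0, .p 47853936, .p 0, .m 41226624, .p 0, .p 0, .p 0], [.p 128339424, .p 0, .m 102255840, .p 0, .p 14042160, .p 0, .m 7375824, .p 0, .p 0], [.p 0, .p 175263624, .p 0, .m 136259640, .p 0, .p 0, .p 0, .p 0, .p 0], [.m 29724816, .p 0, .p 121892496, .p 0, .m 78349728, .p 0, .p 0, .p 0, .p 0], [.p 0, .m 25400520, .p 0, .p 52707240, .p 0, .m 27306720, .p 0, .p 0, .p 0], [.p 1929932, .p 0, .m 9892464, .p 0, .p 13995132, .p 0, .m 6032600, .p 0, .p 0], [.p 0, .p 717956, .p 0, .m 2153868, .p 0, .p 2153868,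 .p 0, .m 717956, .p 0], [.m 24891, .p 0, .p 99564, .p 0, .m 149346, .p 0, .p 99564, .p 0, .m 24891]],
    [[.p 556795728, .p 0, .p 326260224, .p 0, .m 377314416, .p 0, .p 0, .p 0, .p 0], [.p 0, .m 191903472, .p 0, .p 1137802032, .p 0, .m 602586432, .p 0, .p 0, .p 0], [.p 1182832704, .p 0, .m 584458848, .p 0, .p 203405904, .p 0, .m 175171536, .p 0, .p 0], [.p 0, .p 283168584, .p 0, .m 201002616, .p 0, .p 0, .p 0, .p 0, .p 0], [.m 164556336, .p 0, .p 518570448, .p 0, .m 267817152, .p 0, .p 0, .p 0, .p 0], [.p 0, .m 683529480, .p 0, .p 1050149736, .p 0, .m 388845792, .p 0, .p 0, .p 0], [.p 91772492, .p 0, .m 360316080, .p 0, .p 398581500, .p 0, .m 130037912, .p 0, .p 0], [.p 0, .p 75313556, .p 0, .m 196102428, .p 0, .p 166264188, .p 0, .m 45475316, .p 0], [.m 2210051, .p 0, .p 7966140, .p 0, .m 10638114, .p 0, .p 6218012, .p 0, .m 1335987]]]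
  β := 145
  D := 8
  E := 8
  nx := 126
  ny := 126
  n0 := 10388403216

def TP : Tab where
  cf := [[[.p 14573196, .p 0, .p 0, .p 0, .p 0, .p 0, .p 0, .p 0, .p 0, .p 0, .p 0], [.m 105774264, .m 41423256, .p 0, .p 0, .p 0, .p 0, .p 0, .p 0, .p 0, .p 0, .p 0], [.p 386791884, .p 331230240, .p 73776216, .p 0, .p 0, .p 0, .p 0, .p 0, .p 0, .p 0, .p 0], [.m 620417376, .m 527489208, .m 42314712, .p 16295304, .p 0, .p 0, .p 0, .p 0, .p 0, .p 0, .p 0], [.p 387678528, .p 20209392, .m 226498944, .p 92791992, .p 62818648, .p 0, .p 0, .p 0, .p 0, .p 0, .p 0], [.m 19840320, .p 424244160, .p 321389760, .m 86703360, .p 8108848, .p 23021648, .p 0, .p 0, .p 0, .p 0, .p 0], [.m 43011648, .m 206771328, .m 155026752, .m 160231488, .m 184588672, .m 10069712, .p 19367072, .p 0, .p 0, .p 0, .p 0], [.p 0, .p 0, .p 28674432, .p 137847552, .p 119522752, .p 11355456, .p 3726784, .p 4583584, .p 0, .p 0, .p 0], [.p 0, .p 0, .p 0,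 .p 0, .m 4779072, .m 22974592, .m 21880896, .m 1694400, .p 2047104, .p 0, .p 0], [.p 0, .p 0, .p 0, .p 0, .p 0, .p 0, .p 0, .p 0, .p 0, .p 0, .p 0], [.p 0, .p 0, .p 0, .p 0, .p 0, .p 0, .p 0, .p 0, .p 0, .p 0, .p 0]],
    [[.p 44797317588, .p 0, .p 0, .p 0, .p 0, .p 0, .p 0, .p 0, .p 0, .p 0, .p 0], [.m 157666229604, .p 29274759936, .p 0, .p 0, .p 0, .p 0, .p 0, .p 0, .p 0, .p 0, .p 0], [.p 188306569773, .m 205116379254, .p 448883529, .p 0, .p 0, .p 0, .p 0, .p 0, .p 0, .p 0, .p 0], [.m 56626777035, .p 446757966774, .p 16768330245, .p 14504906964, .p 0, .p 0, .p 0, .p 0, .p 0, .p 0, .p 0], [.m 46869373098, .m 383591163240, .m 9875402097, .m 81443940834, .m 10856872271, .p 0, .p 0, .p 0, .p 0, .p 0, .p 0], [.p 27515281752, .p 80794192680, .m 61155895530, .p 102896155098, .p 23280169114, .m 67557178, .p 0, .p 0, .p 0, .p 0, .p 0], [.p 3139180704, .p 51842492064, .p 88557390048, .m 5704935216, .p 12657838208,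 .p 3402837712, .m 819821536, .p 0, .p 0, .p 0, .p 0], [.m 2595970080, .m 19961868960, .m 36353455776, .m 43429051776, .m 47869250408, .m 17341539288, .m 1024864184, .m 400804904, .p 0, .p 0, .p 0], [.p 0, .p 0, .p 1730646720, .p 13307912640, .p 23766125856, .p 16107841376, .p 6082903728, .p 2580821760, .p 418134288, .p 0, .p 0], [.p 0, .p 0, .p 0, .p 0, .m 288441120, .m 2217985440, .m 3999035040, .m 2463922560, .m 360476160, .p 33955680, .p 0], [.p 0, .p 0, .p 0, .p 0, .p 0, .p 0, .p 0, .p 0, .p 0, .p 0, .p 0]],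
    [[.p 8650827036, .p 0, .p 0, .p 0, .p 0, .p 0, .p 0, .p 0, .p 0, .p 0, .p 0], [.m 38904978744, .p 5819949864, .p 0, .p 0, .p 0, .p 0, .p 0, .p 0, .p 0, .p 0, .p 0], [.p 66614708124, .m 44467734240, .p 2150176008, .p 0, .p 0, .p 0, .p 0, .p 0, .p 0, .p 0, .p 0], [.m 49057154496, .p 120141823752, .m 4013870184, .p 4327152360, .p 0, .p 0, .p 0, .p 0, .p 0, .p 0, .p 0], [.p 6816996288, .m 151850548368, .m 2800884384, .m 29790018216, .m 2066873928, .p 0, .p 0, .p 0, .p 0, .p 0, .p 0], [.p 9698569920, .p 92046813120, .p 12132110784, .p 63965141760, .p 7949379056, .p 853287440, .p 0, .p 0, .p 0, .p 0, .p 0], [.m 3818968128, .m 21690304128, .m 10516971840, .m 55826949696, .m 10157059840, .m 5914096208, .m 823722592, .p 0, .p 0, .p 0, .p 0], [.p 0, .p 0, .p 3049439616, .p 17324673792, .p 5039207872, .p 9386847552, .p 1910623680, .p 3151776, .p 0, .p 0, .p 0], [.p 0, .p 0, .p 0, .p 0, .m 759970368, .m 4319681152,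 .m 1119633472, .m 315339968, .m 70311296, .p 0, .p 0], [.p 0, .p 0, .p 0, .p 0, .p 0, .p 0, .p 55940096, .p 318274560, .p 83081216, .m 6585344, .p 0], [.p 0, .p 0, .p 0, .p 0, .p 0, .p 0, .p 0, .p 0, .p 0, .p 0, .p 0]],
    [[.m 11, .p 0, .p 0, .p 0, .p 0, .p 0, .p 0, .p 0, .p 0, .p 0, .p 0], [.p 12, .p 0, .p 0, .p 0, .p 0, .p 0, .p 0, .p 0, .p 0, .p 0, .p 0], [.p 0, .p 0, .m 4, .p 0, .p 0, .p 0, .p 0, .p 0, .p 0, .p 0, .p 0], [.p 0, .p 0, .p 0, .p 0, .p 0, .p 0, .p 0, .p 0, .p 0, .p 0, .p 0], [.p 0, .p 0, .p 0, .p 0, .p 0, .p 0, .p 0, .p 0, .p 0, .p 0, .p 0], [.p 0, .p 0, .p 0, .p 0, .p 0, .p 0, .p 0, .p 0, .p 0, .p 0, .p 0], [.p 0, .p 0, .p 0, .p 0, .p 0, .p 0, .p 0, .p 0, .p 0, .p 0, .p 0], [.p 0, .p 0, .p 0, .p 0, .p 0, .p 0, .p 0, .p 0, .p 0, .p 0, .p 0], [.p 0, .p 0, .p 0, .p 0, .p 0, .p 0, .p 0, .p 0, .p 0, .p 0, .p 0], [.p 0, .p 0, .p 0, .p 0, .p 0, .p 0, .p 0, .p 0, .p 0, .p 0, .p 0], [.p 0, .p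 0, .p 0, .p 0, .p 0, .p 0, .p 0, .p 0, .p 0, .p 0, .p 0]],
    [[.p 32130811956, .p 0, .p 0, .p 0, .p 0, .p 0, .p 0, .p 0, .p 0, .p 0, .p 0], [.m 113427235332, .p 20678079360, .p 0, .p 0, .p 0, .p 0, .p 0, .p 0, .p 0, .p 0, .p 0], [.p 144911166117, .m 129008153478, .p 8592243809, .p 0, .p 0, .p 0, .p 0, .p 0, .p 0, .p 0, .p 0], [.m 68494131435, .p 276473673342, .p 4553881141, .p 18942677532, .p 0, .p 0, .p 0, .p 0, .p 0, .p 0, .p 0], [.m 9542060658, .m 275239078608, .m 72182620785, .m 95815457994, .m 4385894615, .p 0, .p 0, .p 0, .p 0, .p 0, .p 0], [.p 21592084296, .p 137366352984, .p 92953369054, .p 123316017330, .p 10705470978, .p 3626306270, .p 0, .p 0, .p 0, .p 0, .p 0], [.m 7933834656, .m 22024496736, .p 1011554000, .m 11492026416, .m 3280961504, .m 16598566832, .m 1208101296, .p 0, .p 0, .p 0, .p 0], [.m 621317664, .m 20277224352, .m 63217816992, .m 63230272512, .m 21099987624, .m 1132891800, .m 5271009912,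 .m 758814952, .p 0, .p 0, .p 0], [.p 1384517376, .p 12030847488, .p 29332898496, .p 36519781056, .p 38436706528, .p 33550136928, .p 13820359344, .p 825544192, .m 46937264, .p 0, .p 0], [.p 0, .p 0, .m 923011584, .m 8020564992, .m 19655830304, .m 20260967584, .m 9961947424, .m 3418916864, .m 1379019136, .m 219359008, .p 0], [.p 0, .p 0, .p 0, .p 0, .p 153835264, .p 1336760832, .p 3315744256, .p 3446910720, .p 1506345984, .p 174144256, .m 18109696]]]
  β := 181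
  D := 10
  E := 10
  nx := 126
  ny := 126
  n0 := 2397073626826

def bd : BD where
  K := 3
  TC := TC
  zC := ⟨50, 12, 8, 293901581537280⟩
  sC := 432
  gC := 1
  mC := 4
  TP := TP
  zP := ⟨47, 10, 10, 44279143464192⟩
  sP := 4
  q := 63
  tC := (.leaf 0)
  tP := (.sy (0) (.leaf 0) (.sy (31) (.leaf 0) (.sy (47) (.sx (31) (.leaf 0) (.leaf 0)) (.sy (55) (.sx (31) (.leaf 0) (.leaf 0)) (.sy (59) (.sy (57) (.sx (31) (.leaf 0) (.sx (47) (.leaf 0) (.leaf 0))) (.sy (58) (.sx (31) (.leaf 0) (.sx (47) (.leaf 0) (.leaf 0))) (.sx (31) (.leaf 0) (.sx (47) (.leaf 0) (.leaf 0))))) (.sy (61) (.sy (60) (.sx (31) (.leaf 0) (.sx (47) (.leaf 0) (.leaf 0))) (.sx (31) (.leaf 0) (.sx (47) (.leaf 0) (.leaf 0)))) (.sy (62) (.sx (31) (.leaf 0) (.sx (47) (.leaf 0) (.leaf 0))) (.sx (31) (.leaf 0) (.sx (47) (.leaf 0) (.leaf 0))))))))))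

theorem ok : bd.ok v2.d = true := by decide +kernel
theorem okC : bd.okC = true := by decide +kernel
theorem okP : bd.okP = true := by decide +kernel

theorem bpos : ∀ N M p κ : ℝ, Dom N M p κ → 0 ≤ v2.d.cert.B0.f N M +
    p * v2.d.cert.B1.f N M :=
  bpos_of ok okC okP

end Vale.Agent.P211.H129.BV2
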