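import Vale.Agent.P211.H626.Pw4

set_option linter.all false

/-! P211 (helper129): the scalar conditions with the exact multiplier `lam = S / p`; only `p > 0`
is needed. -/

namespace Vale.Agent.P211.H129

open Vale.Agent.P211 Vale.Agent.P211.S4 Vale.Agent.P211.H626

/-- the form in `(u, h, g, Z)`, multiplied by `p`, with the multiplier `S / p` (on `g`) and `n S / p`
(on `Z`) -/
noncomputable def F5 (c : Co) (e : Ex) (N M p κ S n U X Y Z : ℝ) : ℝ :=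
  6 / 7 * c.A * U ^ 2 + p * U * ((c.AM + M * c.B1) * X + (c.AN + N * c.C1) * Y) +
    p * Shh c e N M p * X ^ 2 + (p * Sgg c e N M p κ + S) * Y ^ 2 + p * Shg c e N M p κ * (X * Y) +
    p * (3 * N ^ 2 * (3 * c.AM - M * c.B1)) * (X * Z) +
    p * (3 * N ^ 2 * (3 * c.AN - N * c.C1)) * (Y * Z) + n * S * Z ^ 2

/-- the scalar conditions at a point with `p > 0`: exact multiplier -/
def PwX (c : Co) (e : Ex) (N M p κ δ : ℝ) : Prop :=
  ∃ S : ℝ, 0 ≤ S ∧ δ + S ≤ Sc c e N M p (κ * N ^ 3) ∧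
    ∀ σ U X Y z, κ ^ 2 + σ ^ 2 = 1 →
      0 ≤ F5 c e N M p κ S 0 U X Y (σ * z) + S * z ^ 2

/-- the version with a number `n`, `n (1 - κ²) ≤ 1` -/
theorem PwX.of_n {c : Co} {e : Ex} {N M p κ δ : ℝ} (S n : ℝ) (hS : 0 ≤ S)
    (h1 : δ + S ≤ Sc c e N M p (κ * N ^ 3)) (hn : n * (1 - κ ^ 2) ≤ 1)
    (hF : ∀ U X Y Z, 0 ≤ F5 c e N M p κ S n U X Y Z) : PwX c e N M p κ δ := by
  refine ⟨S, hS, h1, fun σ U X Y z hσ => ?_⟩
  have h2 := hF U X Y (σ * z)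
  have h3 : F5 c e N M p κ S n U X Y (σ * z) =
      F5 c e N M p κ S 0 U X Y (σ * z) + S * (n * (1 - κ ^ 2)) * z ^ 2 := by
    rw [show 1 - κ ^ 2 = σ ^ 2 by linarith]
    unfold F5
    ring
  have h4 : S * (n * (1 - κ ^ 2)) * z ^ 2 ≤ S * z ^ 2 := by
    have : S * (n * (1 - κ ^ 2)) ≤ S * 1 := mul_le_mul_of_nonneg_left hn hS
    have := mul_le_mul_of_nonneg_right this (sq_nonneg z)
    linarith
  linarith

/-- the version with the row `Z = (1 - κ²) ζ` -/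
theorem PwX.of_z {c : Co} {e : Ex} {N M p κ δ : ℝ} (S : ℝ) (hS : 0 ≤ S)
    (h1 : δ + S ≤ Sc c e N M p (κ * N ^ 3))
    (hF : ∀ U X Y z, 0 ≤ F5 c e N M p κ S 0 U X Y ((1 - κ ^ 2) * z) +
      (1 - κ ^ 2) * S * z ^ 2) : PwX c e N M p κ δ := by
  refine ⟨S, hS, h1, fun σ U X Y z hσ => ?_⟩
  have hs : 1 - κ ^ 2 = σ ^ 2 := by linarith
  by_cases h0 : σ = 0
  · have h2 := hF U X Y 0
    have h3 : F5 c e N M p κ S 0 U X Y ((1 - κ ^ 2) * 0) + (1 - κ ^ 2) * S * 0 ^ 2 =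
        F5 c e N M p κ S 0 U X Y (σ * z) := by rw [h0]; unfold F5; ring
    rw [h3] at h2
    have : 0 ≤ S * z ^ 2 := by positivity
    linarith
  · have h2 := hF U X Y (z / σ)
    have h3 : F5 c e N M p κ S 0 U X Y ((1 - κ ^ 2) * (z / σ)) + (1 - κ ^ 2) * S * (z / σ) ^ 2 =
        F5 c e N M p κ S 0 U X Y (σ * z) + S * z ^ 2 := by
      rw [hs]
      have e1 : σ ^ 2 * (z / σ) = σ * z := by field_simp
      have e2 : σ ^ 2 * S * (z / σ) ^ 2 = S * z ^ 2 := by field_simp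
      rw [e1, e2]
    rwa [h3] at h2

/-- **the reduction** for `p > 0` -/
theorem RR_of_pwx {c : Co} {e : Ex} {P : H56.Pt} (hP : P.Ok) {δ : ℝ} (hp : 0 < P.p)
    (h : PwX c e P.N P.M P.p P.κ δ) :
    δ ≤ RR c e P.N P.M P.p P.κ P.σ P.u P.h P.g P.z := by
  obtain ⟨S, hS, h1, hF⟩ := h
  have e1 := H56.dt_self_nonneg P.g
  have e2 := H56.dt_self_nonneg P.z
  have e3 := H56.dt_self_nonneg P.t
  have hn := hP.norm
  have hgz : dt P.g P.g + dt P.z P.z ≤ P.p := by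
    show H56.dt P.g P.g + H56.dt P.z P.z ≤ P.p
    linarith
  have h2 : P.p * (RR c e P.N P.M P.p P.κ P.σ P.u P.h P.g P.z -
      Sc c e P.N P.M P.p (P.κ * P.N ^ 3)) + S * (dt P.g P.g + dt P.z P.z) =
      ∑ i, (F5 c e P.N P.M P.p P.κ S 0 (P.u i) (P.h i) (P.g i) (P.σ * P.z i) +
        S * P.z i ^ 2) := by
    have hp' := hp.ne'
    unfold RR Sc F5 Shh Sgg Shg dt
    simp only [Fin.sum_univ_four]
    field_simp
    ring
  have h3 : 0 ≤ ∑ i, (F5 c e P.N P.M P.p P.κ S 0 (P.u i) (P.h i) (P.g i) (P.σ * P.z i) +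
        S * P.z i ^ 2) := Finset.sum_nonneg fun i _ => hF _ _ _ _ _ hP.ks
  rw [← h2] at h3
  have h4 : S * (dt P.g P.g + dt P.z P.z) ≤ S * P.p := mul_le_mul_of_nonneg_left hgz hS
  have h5 : 0 ≤ P.p * (RR c e P.N P.M P.p P.κ P.σ P.u P.h P.g P.z -
      Sc c e P.N P.M P.p (P.κ * P.N ^ 3) + S) := by nlinarith
  have h6 := nonneg_of_mul_nonneg_right h5 hp
  linarith

/-- the domain is open at `p = 0` -/
theorem dom_open {N M κ : ℝ} (h : Dom N M 0 κ) : ∃ r, 0 < r ∧ ∀ q, 0 < q → q ≤ r → Dom N M q κ := by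
  have h1 := h.N0
  have h2 := h.M0
  have h3 := h.NM
  have hN2 : N ≤ 2 := by linarith
  have hTh : 0 < 6 * (2 - N - M) + 2 / 5 * (N - M) ^ 2 := by
    rcases (show 0 ≤ 2 - N - M by linarith).lt_or_eq with h4 | h4
    · positivity
    · have h5 : N - M ≠ 0 := fun h5 => h.ne ⟨by linarith, by linarith⟩
      positivity
  have h6 : 4 * κ * N ^ 3 - 9 / 2 * N ^ 2 ≤ 14 := by
    have a1 : 0 ≤ (2 - N) * (4 * N ^ 2 + 7 / 2 * N + 7) := mul_nonneg (by linarith) (by positivity)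
    have a2 : κ * N ^ 3 ≤ 1 * N ^ 3 := mul_le_mul_of_nonneg_right h.k2 (by positivity)
    nlinarith
  refine ⟨min 1 (20 * (6 * (2 - N - M) + 2 / 5 * (N - M) ^ 2)), lt_min one_pos (by positivity),
    fun q hq hq2 => ?_⟩
  have hq1 := hq2.trans (min_le_left _ _)
  exact ⟨h1, h2, h3, h.ne, hq.le, h.k1, h.k2, h.kmin, h.kmin', by linarith,
    hq2.trans (min_le_right _ _)⟩

theorem lim0 {a b c r : ℝ} (hr : 0 < r) (h : ∀ q, 0 < q → q ≤ r → 0 ≤ a + b * q + c * q ^ 2) :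
    0 ≤ a := by
  have h1 : Filter.Tendsto (fun q : ℝ => a + b * q + c * q ^ 2) (nhdsWithin 0 (Set.Ioi 0))
      (nhds (a + b * 0 + c * 0 ^ 2)) := by
    apply Filter.Tendsto.mono_left _ nhdsWithin_le_nhds
    exact (Continuous.tendsto (by fun_prop) 0)
  have h2 : ∀ᶠ q in nhdsWithin (0 : ℝ) (Set.Ioi 0), 0 ≤ a + b * q + c * q ^ 2 := by
    filter_upwards [Ioc_mem_nhdsGT hr] with q hq
    exact h q hq.1 hq.2
  have h3 := ge_of_tendsto h1 h2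
  simpa using h3

/-- at `p = 0` by continuity -/
theorem zero_of_pos {c : Co} {e : Ex} {N M κ δ r : ℝ} (hr : 0 < r) (hκ : κ ^ 2 ≤ 1)
    (h : ∀ q, 0 < q → q ≤ r → PwX c e N M q κ δ) :
    δ ≤ Sc c e N M 0 (κ * N ^ 3) ∧ 0 ≤ Shh c e N M 0 ∧ 0 ≤ c.A := by
  have hσ : κ ^ 2 + Real.sqrt (1 - κ ^ 2) ^ 2 = 1 := by
    rw [Real.sq_sqrt (by linarith)]; ring
  refine ⟨?_, ?_, ?_⟩
  · have h1 : 0 ≤ Sc c e N M 0 (κ * N ^ 3) - δ := by
      refine lim0 (b := Sc c e N M 1 (κ * N ^ 3) - Sc c e N M 0 (κ * N ^ 3) - 5 / 3 * c.C1)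
        (c := 5 / 3 * c.C1) hr fun q h1 h2 => ?_
      obtain ⟨S, hS, h3, -⟩ := h q h1 h2
      have h4 : Sc c e N M 0 (κ * N ^ 3) - δ + (Sc c e N M 1 (κ * N ^ 3) -
          Sc c e N M 0 (κ * N ^ 3) - 5 / 3 * c.C1) * q + 5 / 3 * c.C1 * q ^ 2 =
          Sc c e N M q (κ * N ^ 3) - δ := by
        unfold Sc
        ring
      rw [h4]
      linarith
    linarith
  · refine lim0 (b := 5 / 3 * c.B1 + M * c.B1M) (c := 0) hr fun q h1 h2 => ?_
    obtain ⟨S, hS, -, h3⟩ := h q h1 h2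
    have h4 := h3 _ 0 1 0 0 hσ
    have h5 : F5 c e N M q κ S 0 0 1 0 (Real.sqrt (1 - κ ^ 2) * 0) + S * 0 ^ 2 =
        q * (Shh c e N M 0 + (5 / 3 * c.B1 + M * c.B1M) * q + 0 * q ^ 2) := by
      unfold F5 Shh
      ring
    rw [h5] at h4
    exact nonneg_of_mul_nonneg_right h4 h1
  · obtain ⟨S, hS, -, h3⟩ := h r hr le_rfl
    have h4 := h3 _ 1 0 0 0 hσ
    have h5 : F5 c e N M r κ S 0 1 0 0 (Real.sqrt (1 - κ ^ 2) * 0) + S * 0 ^ 2 =
        6 / 7 * c.A := by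
      unfold F5
      ring
    rw [h5] at h4
    linarith

variable {M 𝒪 V : Type*} [TopologicalSpace M] [CommRing 𝒪] [Algebra ℝ 𝒪]
    [AddCommGroup V] [Module 𝒪 V] {G : Geo2 M 𝒪 V}

/-- **A vertex certificate from the exact scalar conditions at `p > 0`.** -/
theorem vc_of_pwx {c : Cert} (h : c.Sm G) {a a' : ℝ → ℝ} {x y : ℝ} (δ : ℝ → ℝ → ℝ)
    (hδ : ∀ N M, 0 ≤ N → 0 ≤ M → 0 ≤ δ N M) (hδ' : ∀ N M, 0 < N → 0 < M → 0 < δ N M)
    (hB : ∀ N M p κ, Dom N M p κ → 0 ≤ c.B0.f N M + p * c.B1.f N M)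
    (hpw : ∀ N M p κ, Dom N M p κ → 0 < p →
      PwX (c.co N M) (Cert.exP a a' x y N M) N M p κ (δ N M)) :
    VC G E3 a a' x y := by
  refine Cert.vc h fun P hP hE hne => ?_
  have hd := dom_of hP hE hne
  have hκ : P.κ ^ 2 ≤ 1 := by nlinarith [hP.ks, sq_nonneg P.σ]
  have key : δ P.N P.M ≤ RR (c.co P.N P.M) (Cert.exP a a' x y P.N P.M) P.N P.M P.p P.κ P.σ
      P.u P.h P.g P.z ∧ 0 ≤ (c.co P.N P.M).A := by
    rcases hd.p0.lt_or_eq with hp | hp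
    · have h1 := hpw _ _ _ _ hd hp
      refine ⟨RR_of_pwx hP hp h1, ?_⟩
      obtain ⟨S, hS, -, h3⟩ := h1
      have h4 := h3 _ 1 0 0 0 hP.ks
      have h5 : F5 (c.co P.N P.M) (Cert.exP a a' x y P.N P.M) P.N P.M P.p P.κ S 0 1 0 0
          (P.σ * 0) + S * 0 ^ 2 = 6 / 7 * (c.co P.N P.M).A := by
        unfold F5
        ring
      rw [h5] at h4
      linarith
    · obtain ⟨r, hr, hr2⟩ := dom_open (κ := P.κ) (by rw [hp]; exact hd)
      obtain ⟨k1, k2, k3⟩ := zero_of_pos (c := c.co P.N P.M) (e := Cert.exP a a' x y P.N P.M)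
        hr hκ (fun q h1 h2 => hpw _ _ _ _ (hr2 q h1 h2) h1)
      refine ⟨?_, k3⟩
      have e2 := H56.dt_self_nonneg P.g
      have e3 := H56.dt_self_nonneg P.z
      have e4 := H56.dt_self_nonneg P.t
      have hn := hP.norm
      have g0 : P.g = 0 := dt_zero_imp (by linarith)
      have z0 : P.z = 0 := dt_zero_imp (by linarith)
      have u0 : P.u = 0 := hP.u0 hp.symm
      have h2 : 0 ≤ dt P.h P.h := H56.dt_self_nonneg P.h
      have h3 : RR (c.co P.N P.M) (Cert.exP a a' x y P.N P.M) P.N P.M 0 P.κ P.σ 0 P.h 0 0 =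
          Sc (c.co P.N P.M) (Cert.exP a a' x y P.N P.M) P.N P.M 0 (P.κ * P.N ^ 3) +
            Shh (c.co P.N P.M) (Cert.exP a a' x y P.N P.M) P.N P.M 0 * dt P.h P.h := by
        unfold RR Sc Shh dt
        simp only [Fin.sum_univ_four, Pi.zero_apply]
        ring
      rw [g0, z0, u0, ← hp, h3]
      have h4 := mul_nonneg k2 h2
      linarith
  exact ⟨key.2, hB _ _ _ _ hd, (hδ _ _ hP.N0 hP.M0).trans key.1,
    fun h3 h4 => (hδ' _ _ h3 h4).trans_le key.1⟩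

end Vale.Agent.P211.H129
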