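import Vale.Agent.P211.H626.GoodC
import Vale.Agent.P211.H626.Id7
import Vale.Agent.P211.H129.Exact
import Vale.Agent.P211.H129.Chart

set_option linter.all false

/-! P211 (helper129): the corner chart for the leaves with exactly eliminated multiplier.
Rows `u = 7 V`, `h = X - G / t`, `g = G / t`, `σ z = t Z`; `p = t² (20 - 12 y²) P`,
`κ = 1 - t⁴ k`. -/

namespace Vale.Agent.P211.H129

open Vale.Agent.P211 Vale.Agent.P211.S4 Vale.Agent.P211.H237 Vale.Agent.P211.H626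

/-- matrix template of the corner chart -/
def tmC7 : Tm7 where
  a11 := [(0, 0, 0)]
  a12 := [(1, 0, 1)]
  a13 := [(1, 0, 2)]
  a14 := []
  a22 := [(1, 0, 3), (2, 0, 4)]
  a23 := [(1, 0, 5), (1, 1, 6), (2, 0, 7)]
  a24 := [(1, 0, 8)]
  a33 := [(0, 0, 12), (0, 1, 13), (1, 0, 9), (1, 1, 10), (2, 0, 11)]
  a34 := [(1, 0, 17)]
  a44 := [(0, 0, 12), (0, 1, 13), (1, 0, 14), (1, 1, 15), (2, 0, 16)]

/-- indices of the corner chart -/
def idC7 : Id7 where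
  tm := tmC7
  r0 := 18
  ss := [(1, 19), (2, 20)]
  cons := [(21, 99, 22)]

/-- meaning of the tables of the corner chart at the point with `Θ = t²` -/
structure EqC7 (s : En) (w : ℕ → ℝ) (N M t y g : ℝ) : Prop where
  gp : 0 < g
  e0 : w 0 = 1400 * (s.GF N M * (6 * (s.co N M).A)) / (g * t ^ 6)
  e1 : w 1 = 1400 * (20 - 12 * y ^ 2) * (s.GF N M * ((s.co N M).AM + M * (s.co N M).B1)) /
    (2 * g * t ^ 4)
  e2 : w 2 = 1400 * (20 - 12 * y ^ 2) * (s.GF N M * ((s.co N M).AN + N * (s.co N M).C1 -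
    ((s.co N M).AM + M * (s.co N M).B1))) / (2 * g * t ^ 5)
  e3 : w 3 = 200 * (20 - 12 * y ^ 2) * (s.GF N M * hh0 s N M) / (g * t ^ 4)
  e4 : w 4 = 200 * (20 - 12 * y ^ 2) ^ 2 * (s.GF N M * hh1 s N M) / (g * t ^ 2)
  e5 : w 5 = 200 * (20 - 12 * y ^ 2) * (s.GF N M * (hg0 s N M + hgk s N M - 2 * hh0 s N M)) /
    (2 * g * t ^ 5)
  e6 : w 6 = 200 * (20 - 12 * y ^ 2) * (s.GF N M * (-hgk s N M)) / (2 * g * t)
  e7 : w 7 = 200 * (20 - 12 * y ^ 2) ^ 2 * (s.GF N M * (hg1 s N M - 2 * hh1 s N M)) /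
    (2 * g * t ^ 3)
  e8 : w 8 = 200 * (20 - 12 * y ^ 2) * (s.GF N M * hz s N M) / (2 * g * t ^ 3)
  e9 : w 9 = 200 * (20 - 12 * y ^ 2) * (s.GF N M * (hh0 s N M - hg0 s N M + gg0 s N M -
    hgk s N M + ggk s N M)) / (g * t ^ 6) + w 14
  e10 : w 10 = 200 * (20 - 12 * y ^ 2) * (s.GF N M * (hgk s N M - ggk s N M)) / (g * t ^ 2) + w 15
  e11 : w 11 = 200 * (20 - 12 * y ^ 2) ^ 2 * (s.GF N M * (hh1 s N M - hg1 s N M + gg1 s N M)) /
    (g * t ^ 4) + w 16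
  e12 : w 12 = s.HF N M * (z00 s N M + z01 s N M) / (g * t ^ 6)
  e13 : w 13 = s.HF N M * (-z01 s N M) / (g * t ^ 2)
  e14 : w 14 = (20 - 12 * y ^ 2) * (s.HF N M * (z10 s N M + z11 s N M)) / (g * t ^ 4)
  e15 : w 15 = (20 - 12 * y ^ 2) * (s.HF N M * (-z11 s N M)) / g
  e16 : w 16 = (20 - 12 * y ^ 2) ^ 2 * (s.HF N M * z20 s N M) / (g * t ^ 2)
  e17 : w 17 = 200 * (20 - 12 * y ^ 2) * (s.GF N M * (gz s N M - hz s N M)) / (2 * g * t ^ 4)
  e18 : w 18 = 1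
  e19 : w 19 = 2
  e20 : w 20 = -t ^ 4

section
variable {s : En} {w : ℕ → ℝ} {N M t y P k n g D : ℝ}

theorem entC7_11 (e : EqC7 s w N M t y g) (ht : 0 < t) (hD : 0 < D)
    (hG : s.GF N M = 150 * D * t ^ 8) :
    ent7 w P k idC7.tm.a11 = 30000 * D * t ^ 2 / g * (49 * (6 / 7 * (s.co N M).A)) := by
  have gp := e.gp
  unfold ent7 zsV idC7 tmC7
  simp only [List.foldr, sel_0, sel_1, sel_2]
  rw [e.e0, hG]
  field_simp
  ring

theorem entC7_12 (e : EqC7 s w N M t y g) (ht : 0 < t) (hD : 0 < D)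
    (hG : s.GF N M = 150 * D * t ^ 8) :
    ent7 w P k idC7.tm.a12 = 30000 * D * t ^ 2 / g * (7 * ((t ^ 2 * ((20 - 12 * y ^ 2) * P)) *
      ((s.co N M).AM + M * (s.co N M).B1) / 2)) := by
  have gp := e.gp
  unfold ent7 zsV idC7 tmC7
  simp only [List.foldr, sel_0, sel_1, sel_2]
  rw [e.e1, hG]
  field_simp
  ring

theorem entC7_13 (e : EqC7 s w N M t y g) (ht : 0 < t) (hD : 0 < D)
    (hG : s.GF N M = 150 * D * t ^ 8) :
    ent7 w P k idC7.tm.a13 = 30000 * D * t ^ 2 / g * (7 * ((t ^ 2 * ((20 - 12 * y ^ 2) * P)) *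
      ((s.co N M).AN + N * (s.co N M).C1 - ((s.co N M).AM + M * (s.co N M).B1)) / (2 * t))) := by
  have gp := e.gp
  unfold ent7 zsV idC7 tmC7
  simp only [List.foldr, sel_0, sel_1, sel_2]
  rw [e.e2, hG]
  field_simp
  ring

theorem entC7_14 : ent7 w P k idC7.tm.a14 = 0 := rfl

theorem entC7_22 (e : EqC7 s w N M t y g) (ht : 0 < t) (hD : 0 < D)
    (hG : s.GF N M = 150 * D * t ^ 8) :
    ent7 w P k idC7.tm.a22 = 30000 * D * t ^ 2 / g * ((t ^ 2 * ((20 - 12 * y ^ 2) * P)) *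
      Shh (s.co N M) (s.ex N M) N M (t ^ 2 * ((20 - 12 * y ^ 2) * P))) := by
  have gp := e.gp
  unfold ent7 zsV idC7 tmC7
  simp only [List.foldr, sel_0, sel_1, sel_2]
  rw [e.e3, e.e4, hG]
  unfold Shh hh0 hh1
  field_simp
  ring

theorem entC7_23 (e : EqC7 s w N M t y g) (ht : 0 < t) (hD : 0 < D)
    (hG : s.GF N M = 150 * D * t ^ 8) :
    ent7 w P k idC7.tm.a23 = 30000 * D * t ^ 2 / g * ((t ^ 2 * ((20 - 12 * y ^ 2) * P)) *
      (Shg (s.co N M) (s.ex N M) N M (t ^ 2 * ((20 - 12 * y ^ 2) * P)) (1 - t ^ 4 * k) / 2 -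
        Shh (s.co N M) (s.ex N M) N M (t ^ 2 * ((20 - 12 * y ^ 2) * P))) / t) := by
  have gp := e.gp
  unfold ent7 zsV idC7 tmC7
  simp only [List.foldr, sel_0, sel_1, sel_2]
  rw [e.e5, e.e6, e.e7, hG]
  unfold Shh Shg hh0 hh1 hg0 hg1 hgk
  field_simp
  ring

theorem entC7_24 (e : EqC7 s w N M t y g) (ht : 0 < t) (hD : 0 < D)
    (hG : s.GF N M = 150 * D * t ^ 8) :
    ent7 w P k idC7.tm.a24 = 30000 * D * t ^ 2 / g * ((t ^ 2 * ((20 - 12 * y ^ 2) * P)) * t *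
      (3 * N ^ 2 * (3 * (s.co N M).AM - M * (s.co N M).B1)) / 2) := by
  have gp := e.gp
  unfold ent7 zsV idC7 tmC7
  simp only [List.foldr, sel_0, sel_1, sel_2]
  rw [e.e8, hG]
  unfold hz
  field_simp
  ring

theorem entC7_44 (e : EqC7 s w N M t y g) (ht : 0 < t) (hD : 0 < D)
    (hH : s.HF N M = 30000 * D * t ^ 6) :
    ent7 w P k idC7.tm.a44 = 30000 * D / g *
      (Sc (s.co N M) (s.ex N M) N M (t ^ 2 * ((20 - 12 * y ^ 2) * P)) ((1 - t ^ 4 * k) * N ^ 3) -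
        s.dn / 30000 * (N ^ 2 * M ^ 2)) := by
  have gp := e.gp
  unfold ent7 zsV idC7 tmC7
  simp only [List.foldr, sel_0, sel_1, sel_2]
  rw [e.e12, e.e13, e.e14, e.e15, e.e16, hH]
  unfold Sc z00 z01 z10 z11 z20
  rw [ex_e1, ex_ek]
  field_simp
  ring

theorem entC7_33 (e : EqC7 s w N M t y g) (ht : 0 < t) (hD : 0 < D)
    (hG : s.GF N M = 150 * D * t ^ 8) :
    ent7 w P k idC7.tm.a33 = 30000 * D * t ^ 2 / g * ((t ^ 2 * ((20 - 12 * y ^ 2) * P)) *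
      (Shh (s.co N M) (s.ex N M) N M (t ^ 2 * ((20 - 12 * y ^ 2) * P)) -
        Shg (s.co N M) (s.ex N M) N M (t ^ 2 * ((20 - 12 * y ^ 2) * P)) (1 - t ^ 4 * k) +
        Sgg (s.co N M) (s.ex N M) N M (t ^ 2 * ((20 - 12 * y ^ 2) * P)) (1 - t ^ 4 * k)) /
          t ^ 2) + ent7 w P k idC7.tm.a44 := by
  have gp := e.gp
  unfold ent7 zsV idC7 tmC7
  simp only [List.foldr, sel_0, sel_1, sel_2]
  rw [e.e9, e.e10, e.e11, hG]
  generalize w 12 = a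
  generalize w 13 = b
  generalize w 14 = c
  generalize w 15 = d
  generalize w 16 = f
  unfold Shh Sgg Shg hh0 hh1 gg0 gg1 ggk hg0 hg1 hgk
  field_simp
  ring

theorem entC7_34 (e : EqC7 s w N M t y g) (ht : 0 < t) (hD : 0 < D)
    (hG : s.GF N M = 150 * D * t ^ 8) :
    ent7 w P k idC7.tm.a34 = 30000 * D * t ^ 2 / g * ((t ^ 2 * ((20 - 12 * y ^ 2) * P)) *
      (3 * N ^ 2 * (3 * (s.co N M).AN - N * (s.co N M).C1) -
        3 * N ^ 2 * (3 * (s.co N M).AM - M * (s.co N M).B1)) / 2) := by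
  have gp := e.gp
  unfold ent7 zsV idC7 tmC7
  simp only [List.foldr, sel_0, sel_1, sel_2]
  rw [e.e17, hG]
  unfold hz gz
  field_simp
  ring

theorem formC7 (e : EqC7 s w N M t y g) (ht : 0 < t) (hD : 0 < D)
    (hG : s.GF N M = 150 * D * t ^ 8) (hH : s.HF N M = 30000 * D * t ^ 6) (U X Y Z : ℝ) :
    idC7.tm.form w P k n (U / 7) (X + Y) (t * Y) (Z / t) = 30000 * D * t ^ 2 / g *
      F5 (s.co N M) (s.ex N M) N M (t ^ 2 * ((20 - 12 * y ^ 2) * P)) (1 - t ^ 4 * k)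
        (Sc (s.co N M) (s.ex N M) N M (t ^ 2 * ((20 - 12 * y ^ 2) * P))
          ((1 - t ^ 4 * k) * N ^ 3) - s.dn / 30000 * (N ^ 2 * M ^ 2)) (n / t ^ 4) U X Y Z := by
  have gp := e.gp
  unfold Tm7.form
  rw [entC7_33 e ht hD hG, entC7_11 e ht hD hG, entC7_12 e ht hD hG, entC7_13 e ht hD hG,
    entC7_14, entC7_22 e ht hD hG, entC7_23 e ht hD hG, entC7_24 e ht hD hG,
    entC7_34 e ht hD hG, entC7_44 e ht hD hH]
  unfold form4 F5
  generalize Shh (s.co N M) (s.ex N M) N M (t ^ 2 * ((20 - 12 * y ^ 2) * P)) = a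
  generalize Sgg (s.co N M) (s.ex N M) N M (t ^ 2 * ((20 - 12 * y ^ 2) * P)) (1 - t ^ 4 * k) = b
  generalize Shg (s.co N M) (s.ex N M) N M (t ^ 2 * ((20 - 12 * y ^ 2) * P)) (1 - t ^ 4 * k) = c
  generalize Sc (s.co N M) (s.ex N M) N M (t ^ 2 * ((20 - 12 * y ^ 2) * P))
          ((1 - t ^ 4 * k) * N ^ 3) - s.dn / 30000 * (N ^ 2 * M ^ 2) = S
  generalize (20 - 12 * y ^ 2) * P = q
  field_simp
  ring

/-- **the scalar conditions from a good leaf of the corner chart** -/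
theorem pwx_of_goodC7 {X Y : ℝ} (h : s.At X Y N M) (hK : s.K = 3) (ht : 0 < t)
    (hT : Tht N M = t ^ 2) (e : EqC7 s w N M t y g) (hg : idC7.Good w P k)
    (hc : ∀ c ∈ idC7.cons, 0 ≤ w c.1 + P * w c.2.1 + k * w c.2.2) :
    PwX (s.co N M) (s.ex N M) N M (t ^ 2 * ((20 - 12 * y ^ 2) * P)) (1 - t ^ 4 * k)
      (s.dn / 30000 * (N ^ 2 * M ^ 2)) := by
  obtain ⟨n, hn, hQ, hR⟩ := hg hc
  have hD : (0 : ℝ) < s.d.D := lt_of_le_of_ne (Nat.cast_nonneg _) h.D0.symm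
  have hG : s.GF N M = 150 * s.d.D * t ^ 8 := by
    unfold En.GF; rw [hT, hK]; ring
  have hH : s.HF N M = 30000 * s.d.D * t ^ 6 := by unfold En.HF; rw [hT, hK]; ring
  generalize (s.d.D : ℝ) = D at hD hG hH
  have gp := e.gp
  have hS : 0 ≤ Sc (s.co N M) (s.ex N M) N M (t ^ 2 * ((20 - 12 * y ^ 2) * P))
      ((1 - t ^ 4 * k) * N ^ 3) - s.dn / 30000 * (N ^ 2 * M ^ 2) := by
    have h1 := hQ 0 0 0 1
    have h2 : idC7.tm.form w P k n 0 0 0 1 = n * ent7 w P k idC7.tm.a44 := by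
      unfold Tm7.form form4
      ring
    rw [h2, entC7_44 e ht hD hH] at h1
    exact nonneg_of_mul_nonneg_right (nonneg_of_mul_nonneg_right h1 hn) (by positivity)
  refine PwX.of_n _ (n / t ^ 4) hS (le_of_eq (by ring)) ?_ fun U X Y Z => ?_
  · have h1 : msV w (sel 1 k (k ^ 2)) idC7.ss = 2 * k - t ^ 4 * k ^ 2 := by
      unfold msV idC7
      simp only [List.foldr, sel_0, sel_1, sel_2]
      rw [e.e19, e.e20]
      ring
    have h2 : w idC7.r0 = 1 := e.e18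
    rw [h1, h2] at hR
    have h3 : n / t ^ 4 * (1 - (1 - t ^ 4 * k) ^ 2) = n * (2 * k - t ^ 4 * k ^ 2) := by
      field_simp
      ring
    rw [h3]
    exact hR
  · have h1 := hQ (U / 7) (X + Y) (t * Y) (Z / t)
    rw [formC7 e ht hD hG hH] at h1
    exact nonneg_of_mul_nonneg_right h1 (by positivity)

/-- the exclusion constraint holds in the domain -/
theorem consC7 (h21 : w 21 = 2 * (1 - y ^ 2) ^ 2 * (2 * (12 * N) + 24 - 12 * M)) (h99 : w 99 = 0)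
    (h22 : w 22 = -(12 * N) ^ 3) (hk : 72 * N ^ 3 * k ≤ (1 - y ^ 2) ^ 2 * (2 * N + 2 - M)) :
    ∀ c ∈ idC7.cons, 0 ≤ w c.1 + P * w c.2.1 + k * w c.2.2 := by
  intro c hc
  simp only [idC7, List.mem_singleton] at hc
  subst hc
  show 0 ≤ w 21 + P * w 99 + k * w 22
  rw [h21, h99, h22]
  nlinarith

end

/-- **the corner chart covers `Θ ≤ 1/4`** -/
theorem chartC7 {N M p κ : ℝ} (h : Dom N M p κ) (hp : 0 < p) (hT : Tht N M ≤ 1 / 4) :
    ∃ t y P k : ℝ, 0 < t ∧ t ≤ 1 / 2 ∧ -1 ≤ y ∧ y ≤ 1 ∧ 0 < P ∧ P ≤ 1 ∧ 0 ≤ k ∧ k ≤ 1 / 14 ∧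
      t ^ 2 = Tht N M ∧ N = 1 - t ^ 2 * (1 - y ^ 2) / 12 + t * y / 2 ∧
      M = 1 - t ^ 2 * (1 - y ^ 2) / 12 - t * y / 2 ∧
      p = t ^ 2 * ((20 - 12 * y ^ 2) * P) ∧ κ = 1 - t ^ 4 * k ∧
      72 * N ^ 3 * k ≤ (1 - y ^ 2) ^ 2 * (2 * N + 2 - M) := by
  obtain ⟨t, y, q, k, ht, ht2, y0, y1, hN, hM, hq, hκ, q0, q1, k0, hk⟩ := chartC h
  have ht1 : t ≤ 1 / 2 := by
    by_contra h1
    have h2 : 1 / 2 < t := not_le.1 h1
    nlinarith
  have hc : 0 < 20 - 12 * y ^ 2 := by nlinarith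
  have hq0 : 0 < q := by
    rw [hq] at hp
    exact (mul_pos_iff_of_pos_left (by positivity)).1 hp
  have e1 : (20 - 12 * y ^ 2) * (q / (20 - 12 * y ^ 2)) = q := by field_simp
  refine ⟨t, y, q / (20 - 12 * y ^ 2), k, ht, ht1, y0, y1, by positivity, ?_, k0,
    chartC_k ht.le (by linarith) y0 y1 hN hM hk, ht2, hN, hM, by rw [e1, hq], hκ, hk⟩
  rw [div_le_one hc]
  exact q1

end Vale.Agent.P211.H129
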