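import Vale.Agent.P211.H626.Pw4

set_option linter.all false

/-! P211 (helper129): the form `F4` and the scalar part in the corner chart
`p = t² q`, `κ = 1 - t⁴ k`. -/

namespace Vale.Agent.P211.H129

open Vale.Agent.P211 Vale.Agent.P211.S4 Vale.Agent.P211.H626

/-- scaled coefficients at a point -/
structure Hat where
  A : ℝ
  AN : ℝ
  AM : ℝ
  B0 : ℝ
  B0N : ℝ
  B0M : ℝ
  B1 : ℝ
  B1N : ℝ
  B1M : ℝ
  C0 : ℝ
  C0N : ℝ
  C0M : ℝ
  C1 : ℝ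
  C1N : ℝ
  C1M : ℝ

/-- `H` contains the coefficients `c`, scaled with `D` and the powers of `t` of the corner chart -/
structure IsHat (c : Co) (D t : ℝ) (H : Hat) : Prop where
  A : H.A = D * t ^ 2 * c.A
  AN : H.AN = D * t ^ 4 * c.AN
  AM : H.AM = D * t ^ 4 * c.AM
  B0 : H.B0 = D * t ^ 2 * c.B0
  B0N : H.B0N = D * t ^ 4 * c.B0N
  B0M : H.B0M = D * t ^ 4 * c.B0M
  B1 : H.B1 = D * t ^ 4 * c.B1
  B1N : H.B1N = D * t ^ 6 * c.B1N
  B1M : H.B1M = D * t ^ 6 * c.B1M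
  C0 : H.C0 = D * t ^ 2 * c.C0
  C0N : H.C0N = D * t ^ 4 * c.C0N
  C0M : H.C0M = D * t ^ 4 * c.C0M
  C1 : H.C1 = D * t ^ 4 * c.C1
  C1N : H.C1N = D * t ^ 6 * c.C1N
  C1M : H.C1M = D * t ^ 6 * c.C1M

namespace Hat

variable (H : Hat) (e : Ex) (D t N M : ℝ)

/-! entries of the form in `(U, h, g, Z)`: constant parts, parts with `q` and with `k` -/

noncomputable def hh0 : ℝ := 5 / 3 * t ^ 2 * H.B0 + M * H.B0M + D * t ^ 4 * e.hh
noncomputable def hhq : ℝ := 5 / 3 * t ^ 2 * H.B1 + M * H.B1M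
noncomputable def gg0 : ℝ := H.AN * (9 * N ^ 2 - 6 * N) + N * H.C0N +
  3 * N ^ 2 * H.C1 * (1 - N) + D * t ^ 4 * e.gg
noncomputable def ggq : ℝ := N * H.C1N
noncomputable def ggk : ℝ := t ^ 4 * (-(9 * N ^ 2 * H.AN) + 3 * N ^ 3 * H.C1)
noncomputable def hg0 : ℝ := H.AM * (9 * N ^ 2 - 6 * N) + M * H.B0N +
  3 * N * M * H.B1 * (1 - N) + N * H.C0M + D * t ^ 4 * e.gh
noncomputable def hgq : ℝ := M * H.B1N + N * H.C1M
noncomputable def hgk : ℝ := t ^ 4 * (-(9 * N ^ 2 * H.AM) + 3 * N ^ 2 * M * H.B1)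
noncomputable def uh : ℝ := H.AM + M * H.B1
noncomputable def ug : ℝ := H.AN + N * H.C1
noncomputable def hz : ℝ := 3 * N ^ 2 * (3 * H.AM - M * H.B1)
noncomputable def gz : ℝ := 3 * N ^ 2 * (3 * H.AN - N * H.C1)

/-! entries of the scalar part: the coefficients of `1, q, q², k, q k` -/

/-- `t²` times the singular part of the constant coefficient -/
noncomputable def s0 : ℝ := H.A * (90 * N ^ 3 - 36 * N ^ 2 - 54 * N ^ 4) +
  H.B0 * (6 * M ^ 2 - 6 * M ^ 3) + H.C0 * (6 * N ^ 2 - 6 * N ^ 3)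
/-- `t²` times the singular part of the coefficient of `q` -/
noncomputable def s1 : ℝ := H.B1 * (6 * M ^ 2 - 6 * M ^ 3) + H.C1 * (6 * N ^ 2 - 6 * N ^ 3)
noncomputable def sc00 : ℝ := H.s0 N M / t ^ 2 + D * (e.e0 + e.ek * N ^ 3)
noncomputable def sc10 : ℝ := H.s1 N M / t ^ 2 + 11 * H.A + 5 / 3 * H.C0 + D * t ^ 2 * e.e1
noncomputable def sc20 : ℝ := 5 / 3 * H.C1
noncomputable def sc01 : ℝ := t ^ 2 * (6 * N ^ 3 * H.C0 - 90 * N ^ 3 * H.A) - D * t ^ 4 * (e.ek * N ^ 3)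
noncomputable def sc11 : ℝ := 6 * t ^ 2 * N ^ 3 * H.C1

end Hat

variable {c : Co} {e : Ex} {D t N M q k : ℝ} {H : Hat}

/-- **the form in the corner chart** -/
theorem corner_F4 (hH : IsHat c D t H) (hD : D ≠ 0) (ht : t ≠ 0) (l n U h g Z : ℝ) :
    D * t ^ 4 * F4 c e N M (t ^ 2 * q) (1 - t ^ 4 * k) (l / (D * t ^ 2)) (n / (D * t ^ 6))
      (U / t ^ 2) h g (t * Z) =
    6 / 7 * H.A * q * U ^ 2 + q * U * (H.uh M * h + H.ug N * g) +
      (H.hh0 e D t M + q * H.hhq t M) * h ^ 2 +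
      (H.gg0 e D t N + q * H.ggq N + k * H.ggk t N + t ^ 2 * l) * g ^ 2 +
      (H.hg0 e D t N M + q * H.hgq N M + k * H.hgk t N M) * (h * g) +
      t * H.hz N M * (h * Z) + t * H.gz N * (g * Z) + n * Z ^ 2 := by
  obtain ⟨hA, hAN, hAM, hB0, hB0N, hB0M, hB1, hB1N, hB1M, hC0, hC0N, hC0M, hC1, hC1N, hC1M⟩ := hH
  unfold F4 Shh Sgg Shg Hat.uh Hat.ug Hat.hh0 Hat.hhq Hat.gg0 Hat.ggq Hat.ggk Hat.hg0 Hat.hgq
    Hat.hgk Hat.hz Hat.gz
  rw [hA, hAN, hAM, hB0, hB0M, hB0N, hB1, hB1N, hB1M, hC0N, hC0M, hC1, hC1N, hC1M]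
  field_simp
  ring

/-- **the scalar part in the corner chart** -/
theorem corner_Sc (hH : IsHat c D t H) (hD : D ≠ 0) (ht : t ≠ 0) (l m : ℝ) :
    D * (Sc c e N M (t ^ 2 * q) ((1 - t ^ 4 * k) * N ^ 3) - l / (D * t ^ 2) * (t ^ 2 * q) -
      m / (D * t ^ 6) * (1 - (1 - t ^ 4 * k) ^ 2) * (t ^ 2 * q)) =
    H.sc00 e D t N M + H.sc10 e D t N M * q + H.sc20 * q ^ 2 + H.sc01 e D t N * k +
      H.sc11 t N * (q * k) - l * q - m * (k * (2 - t ^ 4 * k)) * q := by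
  obtain ⟨hA, hAN, hAM, hB0, hB0N, hB0M, hB1, hB1N, hB1M, hC0, hC0N, hC0M, hC1, hC1N, hC1M⟩ := hH
  unfold Sc Hat.sc00 Hat.sc10 Hat.sc20 Hat.sc01 Hat.sc11 Hat.s0 Hat.s1
  rw [hA, hB0, hB1, hC0, hC1]
  field_simp
  ring

/-- the relation of the multipliers in the corner chart -/
theorem corner_rel (hD : 0 < D) (ht : 0 < t) {l m n : ℝ}
    (h : 0 ≤ l + (m - n) * (k * (2 - t ^ 4 * k))) :
    0 ≤ l / (D * t ^ 2) + (m / (D * t ^ 6) - n / (D * t ^ 6)) * (1 - (1 - t ^ 4 * k) ^ 2) := by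
  have e1 : l / (D * t ^ 2) + (m / (D * t ^ 6) - n / (D * t ^ 6)) * (1 - (1 - t ^ 4 * k) ^ 2) =
      (l + (m - n) * (k * (2 - t ^ 4 * k))) / (D * t ^ 2) := by
    field_simp
    ring
  rw [e1]
  exact div_nonneg h (by positivity)

/-- **the scalar conditions from the corner chart**: rows `h = r₁₁ X + r₁₂ Y`,
`g = r₂₁ X + r₂₂ Y` with nonzero determinant. -/
theorem pw4_corner (hH : IsHat c D t H) (hD : 0 < D) (ht : 0 < t) {l m n δ : ℝ} (hl : 0 ≤ l)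
    (hm : 0 ≤ m) (hn : 0 ≤ n) {r11 r12 r21 r22 : ℝ} (hr : r11 * r22 - r12 * r21 ≠ 0)
    (hQ : ∀ U X Y Z : ℝ, 0 ≤ 6 / 7 * H.A * q * U ^ 2 +
      q * (H.uh M * r11 + H.ug N * r21) * (U * X) + q * (H.uh M * r12 + H.ug N * r22) * (U * Y) +
      ((H.hh0 e D t M + q * H.hhq t M) * r11 ^ 2 +
        (H.gg0 e D t N + q * H.ggq N + k * H.ggk t N + t ^ 2 * l) * r21 ^ 2 +
        (H.hg0 e D t N M + q * H.hgq N M + k * H.hgk t N M) * (r11 * r21)) * X ^ 2 +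
      (2 * (H.hh0 e D t M + q * H.hhq t M) * (r11 * r12) +
        2 * (H.gg0 e D t N + q * H.ggq N + k * H.ggk t N + t ^ 2 * l) * (r21 * r22) +
        (H.hg0 e D t N M + q * H.hgq N M + k * H.hgk t N M) * (r11 * r22 + r12 * r21)) * (X * Y) +
      ((H.hh0 e D t M + q * H.hhq t M) * r12 ^ 2 +
        (H.gg0 e D t N + q * H.ggq N + k * H.ggk t N + t ^ 2 * l) * r22 ^ 2 +
        (H.hg0 e D t N M + q * H.hgq N M + k * H.hgk t N M) * (r12 * r22)) * Y ^ 2 +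
      t * (H.hz N M * r11 + H.gz N * r21) * (X * Z) +
      t * (H.hz N M * r12 + H.gz N * r22) * (Y * Z) + n * Z ^ 2)
    (hS : D * δ ≤ H.sc00 e D t N M + H.sc10 e D t N M * q + H.sc20 * q ^ 2 + H.sc01 e D t N * k +
      H.sc11 t N * (q * k) - l * q - m * (k * (2 - t ^ 4 * k)) * q)
    (hR : 0 ≤ l + (m - n) * (k * (2 - t ^ 4 * k))) :
    Pw4 c e N M (t ^ 2 * q) (1 - t ^ 4 * k) δ := by
  refine ⟨l / (D * t ^ 2), m / (D * t ^ 6), n / (D * t ^ 6), by positivity, by positivity,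
    by positivity, fun U h g Z => ?_, ?_, corner_rel hD ht hR⟩
  · have hpos : 0 < D * t ^ 4 := by positivity
    have key := corner_F4 (e := e) (N := N) (M := M) (q := q) (k := k) hH hD.ne' ht.ne' l n
      (t ^ 2 * U) h g (Z / t)
    have e1 : t ^ 2 * U / t ^ 2 = U := by field_simp
    have e2 : t * (Z / t) = Z := by field_simp
    rw [e1, e2] at key
    refine (mul_nonneg_iff_of_pos_left hpos).1 ?_
    rw [key]
    have h1 := hQ (t ^ 2 * U) ((r22 * h - r12 * g) / (r11 * r22 - r12 * r21))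
      ((r11 * g - r21 * h) / (r11 * r22 - r12 * r21)) (Z / t)
    obtain ⟨X, hX⟩ : ∃ X, X = (r22 * h - r12 * g) / (r11 * r22 - r12 * r21) := ⟨_, rfl⟩
    obtain ⟨Y, hY⟩ : ∃ Y, Y = (r11 * g - r21 * h) / (r11 * r22 - r12 * r21) := ⟨_, rfl⟩
    have eh : h = r11 * X + r12 * Y := by
      rw [hX, hY, mul_div_assoc', mul_div_assoc', ← add_div, eq_div_iff hr]; ring
    have eg : g = r21 * X + r22 * Y := by
      rw [hX, hY, mul_div_assoc', mul_div_assoc', ← add_div, eq_div_iff hr]; ring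
    rw [← hX, ← hY] at h1
    rw [eh, eg]
    refine h1.trans (le_of_eq ?_)
    ring
  · refine le_of_mul_le_mul_left ?_ hD
    rw [corner_Sc hH hD.ne' ht.ne']
    exact hS

end Vale.Agent.P211.H129
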