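import Vale.Agent.P211.H129.NPoly
import Vale.Agent.P211.H626.Pw

set_option linter.all false

/-! P211 (helper129): the certificate in `N` only with `m0 = 3/8`. -/

namespace Vale.Agent.P211.H129.NO

open Topology Filter MeasureTheory Set
open Vale.Agent.P211 Vale.Agent.P211.S4 Vale.Agent.P211.H56 Vale.Agent.P211.H626

/-! ### scalar inequalities -/

theorem s0_pos {N k : ℝ} (h0 : 0 ≤ N) (h2 : N ≤ 2) (k1 : -1 ≤ k) (k2 : k ≤ 1) : 0 < qs0 N k := by
  have e : qs0 N k = (1 - k) / 2 * qs0 N (-1) + (1 + k) / 2 * qs0 N 1 := by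
    simp only [qs0]; ring
  have a1 : (1 : ℝ) / 100 ≤ qs0 N (-1) := by
    rcases le_total N 1 with h | h
    · exact s0ma h0 h
    · exact s0mb h h2
  have a2 : (1 : ℝ) / 100 ≤ qs0 N 1 := by
    rcases le_total N 1 with h | h
    · exact s0pa h0 h
    · exact s0pb h h2
  rw [e]
  have b1 : (1 - k) / 2 * (1 / 100) ≤ (1 - k) / 2 * qs0 N (-1) :=
    mul_le_mul_of_nonneg_left a1 (by linarith)
  have b2 : (1 + k) / 2 * (1 / 100) ≤ (1 + k) / 2 * qs0 N 1 :=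
    mul_le_mul_of_nonneg_left a2 (by linarith)
  linarith

theorem d1_pos {N k : ℝ} (h0 : 0 ≤ N) (h2 : N ≤ 2) (k1 : -1 ≤ k) (k2 : k ≤ 1) :
    0 < 4 * qs0 N k * qS2 N - (51 / 200) ^ 2 * N * (2 - N) ^ 2 := by
  have e : 4 * qs0 N k * qS2 N - (51 / 200) ^ 2 * N * (2 - N) ^ 2 =
      (1 - k) / 2 * (4 * qs0 N (-1) * qS2 N - (51 / 200) ^ 2 * N * (2 - N) ^ 2) +
      (1 + k) / 2 * (4 * qs0 N 1 * qS2 N - (51 / 200) ^ 2 * N * (2 - N) ^ 2) := by
    simp only [qs0]; ring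
  have a1 : (1 : ℝ) / 10000 ≤ 4 * qs0 N (-1) * qS2 N - (51 / 200) ^ 2 * N * (2 - N) ^ 2 := by
    rcases le_total N 1 with h | h
    · exact d1ma h0 h
    · exact d1mb h h2
  have a2 : (1 : ℝ) / 10000 ≤ 4 * qs0 N 1 * qS2 N - (51 / 200) ^ 2 * N * (2 - N) ^ 2 := by
    rcases le_total N 1 with h | h
    · exact d1pa h0 h
    · exact d1pb h h2
  rw [e]
  have b1 := mul_le_mul_of_nonneg_left a1 (show 0 ≤ (1 - k) / 2 by linarith)
  have b2 := mul_le_mul_of_nonneg_left a2 (show 0 ≤ (1 + k) / 2 by linarith)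
  linarith

theorem x_pos {N k : ℝ} (h0 : 0 ≤ N) (h2 : N ≤ 2) (k1 : -1 ≤ k) (k2 : k ≤ 1) : 0 < qX N k := by
  have e : qX N k = (1 - k) / 2 * qX N (-1) + (1 + k) / 2 * qX N 1 := by
    simp only [qX]; ring
  have a1 : (1 : ℝ) / 10 ≤ qX N (-1) := by
    rcases le_total N 1 with h | h
    · exact xma h0 h
    · exact xmb h h2
  have a2 : (1 : ℝ) / 10 ≤ qX N 1 := by
    rcases le_total N 1 with h | h
    · exact xpa h0 h
    · exact xpb h h2
  rw [e]
  have b1 := mul_le_mul_of_nonneg_left a1 (show 0 ≤ (1 - k) / 2 by linarith)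
  have b2 := mul_le_mul_of_nonneg_left a2 (show 0 ≤ (1 + k) / 2 by linarith)
  linarith

/-- the determinant in `(g, z)` -/
theorem det_nonneg {N k : ℝ} (h0 : 0 ≤ N) (h2 : N ≤ 2) (k1 : -1 ≤ k) (k2 : k ≤ 1)
    (hk : 6 * N ^ 2 - 8 ≤ 2 * k * N ^ 3) :
    0 ≤ qX N k * qY N k - (1 - k ^ 2) * (N ^ 3 * qw N) ^ 2 / 4 := by
  rcases le_total N 1 with h | h
  · have e : qX N k * qY N k - (1 - k ^ 2) * (N ^ 3 * qw N) ^ 2 / 4 =
        ((1 - k) / 2) ^ 2 * (qX N (-1) * qY N (-1)) +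
        ((1 - k) / 2) * ((1 + k) / 2) * (qX N (-1) * qY N 1 + qX N 1 * qY N (-1) -
          (N ^ 3 * qw N) ^ 2) + ((1 + k) / 2) ^ 2 * (qX N 1 * qY N 1) := by
      simp only [qX, qY]; ring
    rw [e]
    have a1 := xma h0 h
    have a2 := xpa h0 h
    have a3 := yma h0 h
    have a4 := ypa h0 h
    have a5 := pma h0 h
    have b1 : 0 ≤ (1 - k) / 2 := by linarith
    have b2 : 0 ≤ (1 + k) / 2 := by linarith
    have c1 : 0 ≤ qX N (-1) := by linarith
    have c2 : 0 ≤ qX N 1 := by linarith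
    have d1 := mul_nonneg (pow_nonneg b1 2) (mul_nonneg c1 a3)
    have d2 := mul_nonneg (mul_nonneg b1 b2) a5
    have d3 := mul_nonneg (pow_nonneg b2 2) (mul_nonneg c2 a4)
    linarith
  · -- `m = N³ (1 - k) = t d`
    have hd : 0 ≤ qd N := by unfold qd; positivity
    have hm0 : 0 ≤ N ^ 3 * (1 - k) := mul_nonneg (by positivity) (by linarith)
    have hmd : N ^ 3 * (1 - k) ≤ qd N := by unfold qd; nlinarith
    obtain ⟨t, t0, t1, ht⟩ : ∃ t : ℝ, 0 ≤ t ∧ t ≤ 1 ∧ N ^ 3 * (1 - k) = t * qd N := by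
      rcases hd.lt_or_eq with h3 | h3
      · exact ⟨N ^ 3 * (1 - k) / qd N, by positivity, (div_le_one h3).2 hmd, by field_simp⟩
      · exact ⟨0, le_rfl, zero_le_one, by rw [← h3] at hmd ⊢; linarith⟩
    have eX : qX N k = qX N 1 + t * qd N * (6 * N * qC1 N) := by
      rw [← ht]; simp only [qX]; ring
    have eY : qY N k = qY N 1 + t * qd N * qv N := by
      rw [← ht]; simp only [qY, qX, qv]; ring
    have es : (1 - k ^ 2) * (N ^ 3 * qw N) ^ 2 = t * qd N * (2 * N ^ 3 - t * qd N) * qw N ^ 2 := by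
      rw [← ht]; ring
    have e : qX N k * qY N k - (1 - k ^ 2) * (N ^ 3 * qw N) ^ 2 / 4 =
        (1 - t) ^ 2 * (qX N 1 * qY N 1) + 2 * (t * (1 - t)) * (qX N 1 * qY N 1 +
          qd N / 2 * (qX N 1 * qv N + 6 * N * qC1 N * qY N 1) - N ^ 3 * qd N * qw N ^ 2 / 4) +
        t ^ 2 * ((qX N 1 + qd N * (6 * N * qC1 N)) * (qY N 1 + qd N * qv N) -
          qd N * (2 * N ^ 3 - qd N) * qw N ^ 2 / 4) := by
      rw [es, eX, eY]; ring
    rw [e]
    have a2 := xpb h h2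
    have a4 := ypb h h2
    have a5 := e1b h h2
    have a6 := e2b h h2
    have c2 : 0 ≤ qX N 1 := by linarith
    have b1 : 0 ≤ 1 - t := by linarith
    have d1 := mul_nonneg (pow_nonneg b1 2) (mul_nonneg c2 a4)
    have d2 := mul_nonneg (mul_nonneg zero_le_two (mul_nonneg t0 b1)) a5
    have d3 := mul_nonneg (pow_nonneg t0 2) a6
    linarith

/-! ### vectors -/

theorem dt_comb (x y : Fin 4 → ℝ) (a b : ℝ) :
    0 ≤ a ^ 2 * H56.dt x x + 2 * (a * b) * H56.dt y x + b ^ 2 * H56.dt y y := by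
  have h : a ^ 2 * H56.dt x x + 2 * (a * b) * H56.dt y x + b ^ 2 * H56.dt y y =
      ∑ i, (a * x i + b * y i) ^ 2 := by
    unfold H56.dt
    simp only [Fin.sum_univ_four]
    ring
  rw [h]
  exact Finset.sum_nonneg fun i _ => sq_nonneg _

theorem dt_self_nonneg' (x : Fin 4 → ℝ) : 0 ≤ H56.dt x x :=
  Finset.sum_nonneg fun i _ => mul_self_nonneg _

theorem dt_zero_right (x : Fin 4 → ℝ) : H56.dt x 0 = 0 := by
  unfold H56.dt; simp

/-- the term with `u` -/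
theorem u_term {p k : ℝ} {u g : Fin 4 → ℝ} (hp : 0 ≤ p) (hu : p = 0 → u = 0) (hg : p = 0 → g = 0) :
    0 ≤ H56.dt u u / p + 2 * k * H56.dt g u + k ^ 2 * (p * H56.dt g g) := by
  rcases hp.lt_or_eq with h | h
  · have h1 := dt_comb u g 1 (k * p)
    have h2 : H56.dt u u / p + 2 * k * H56.dt g u + k ^ 2 * (p * H56.dt g g) =
        (1 ^ 2 * H56.dt u u + 2 * (1 * (k * p)) * H56.dt g u + (k * p) ^ 2 * H56.dt g g) / p := by
      field_simp
    rw [h2]
    exact div_nonneg h1 hp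
  · rw [hu h.symm, hg h.symm, ← h]
    simp [H56.dt]

/-- **the main inequality** -/
theorem main_pos {N κ σ p : ℝ} {g z u : Fin 4 → ℝ} (hN : 0 < N) (hN2 : N ≤ 2)
    (hks : κ ^ 2 + σ ^ 2 = 1) (hkm : 6 * N ^ 2 - 8 ≤ 2 * κ * N ^ 3)
    (hp : H56.dt g g + H56.dt z z ≤ p) (hu : p = 0 → u = 0) :
    0 < 17/1250 * (2 - N) * (6 / 7 * (H56.dt u u / p) + 11 * p - 36 * N ^ 2 + 90 * κ * N ^ 3 -
        54 * N ^ 4) +
      (-(17/1250)) * (H56.dt g u - 6 * N * H56.dt g g +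
        9 * N ^ 2 * (κ * H56.dt g g + σ * H56.dt g z)) +
      (26/125 - 41/100 * N + 81/500 * N ^ 2 + p * (2/125 - 23/5000 * N)) *
        (5 / 3 * p + 6 * N ^ 2 - 6 * κ * N ^ 3) +
      N * ((-(41/100) + 81/250 * N + p * (-(23/5000))) * H56.dt g g +
        (2/125 - 23/5000 * N) * (H56.dt g u + 3 * N * H56.dt g g -
          3 * N ^ 2 * (κ * H56.dt g g + σ * H56.dt g z))) +
      (N * (-(507/2000 / N ^ 2)) * H56.dt g g +
        507/2000 / N * (5 / 3 * p + 6 * N ^ 2 - 6 * κ * N ^ 3)) +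
      (4 * (N - N ^ 2 / 5) ^ 2 - 4 * (3 / 8) * (N - N ^ 2 / 5) -
        (1 - 2 / 5 * N) ^ 2 * H56.dt g g) := by
  have hG := dt_self_nonneg' g
  have hZ := dt_self_nonneg' z
  have hp0 : 0 ≤ p := by linarith
  have hg0 : p = 0 → g = 0 := fun h => dt_zero_imp (by linarith)
  have k1 : -1 ≤ κ := by nlinarith [sq_nonneg σ]
  have k2 : κ ≤ 1 := by nlinarith [sq_nonneg σ]
  have hX := x_pos hN.le hN2 k1 k2
  have hs := s0_pos hN.le hN2 k1 k2
  have hd1 := d1_pos hN.le hN2 k1 k2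
  have hdet := det_nonneg hN.le hN2 k1 k2 hkm
  have h2N : 0 ≤ 2 - N := by linarith
  -- the terms
  have t1 := u_term (k := 7 / 12 * (-(17/2500 - 23/5000 * N)) / (17/1250)) hp0 hu hg0
  have t2 : 0 ≤ 7 / 24 * (17/2500 - 23/5000 * N) ^ 2 / (17/1250) * (2 - N) *
      (N * (p * (p - H56.dt g g))) := by
    have : 0 ≤ p - H56.dt g g := by linarith
    positivity
  have t3 : 0 ≤ 23/5000 * N * (N * (p * (p - H56.dt g g))) := by
    have : 0 ≤ p - H56.dt g g := by linarith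
    positivity
  have t4 : 0 < N * (N * qs0 N κ + qS2 N * p ^ 2 - 51/200 * N * (2 - N) * p) := by
    refine mul_pos hN ?_
    have e : 4 * (N * qs0 N κ) * (N * qs0 N κ + qS2 N * p ^ 2 - 51/200 * N * (2 - N) * p) =
        (2 * (N * qs0 N κ) - 51/200 * N * (2 - N) * p) ^ 2 +
        N * (4 * qs0 N κ * qS2 N - (51 / 200) ^ 2 * N * (2 - N) ^ 2) * p ^ 2 := by ring
    have hNs : 0 < N * qs0 N κ := mul_pos hN hs
    rcases hp0.lt_or_eq with h | h
    · have e2 : 0 < (2 * (N * qs0 N κ) - 51/200 * N * (2 - N) * p) ^ 2 +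
        N * (4 * qs0 N κ * qS2 N - (51 / 200) ^ 2 * N * (2 - N) ^ 2) * p ^ 2 := by positivity
      rw [← e] at e2
      exact (mul_pos_iff_of_pos_left (by positivity)).1 e2
    · rw [← h]
      linarith
  have t5 : 0 ≤ qX N κ * (p - H56.dt g g - H56.dt z z) := mul_nonneg hX.le (by linarith)
  have t6 : 0 ≤ qY N κ * H56.dt g g + qX N κ * H56.dt z z + σ * (N ^ 3 * qw N) * H56.dt g z := by
    have h1 := dt_comb z g (qX N κ) (σ * (N ^ 3 * qw N) / 2)
    have h2 : qX N κ * (qY N κ * H56.dt g g + qX N κ * H56.dt z z +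
        σ * (N ^ 3 * qw N) * H56.dt g z) =
        (qX N κ ^ 2 * H56.dt z z + 2 * (qX N κ * (σ * (N ^ 3 * qw N) / 2)) * H56.dt g z +
          (σ * (N ^ 3 * qw N) / 2) ^ 2 * H56.dt g g) +
        (qX N κ * qY N κ - (1 - κ ^ 2) * (N ^ 3 * qw N) ^ 2 / 4) * H56.dt g g := by
      have : σ ^ 2 = 1 - κ ^ 2 := by linarith
      rw [← this]
      ring
    have h3 := mul_nonneg hdet hG
    have h4 : 0 ≤ qX N κ * (qY N κ * H56.dt g g + qX N κ * H56.dt z z +
        σ * (N ^ 3 * qw N) * H56.dt g z) := by rw [h2]; linarith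
    exact (mul_nonneg_iff_of_pos_left hX).1 h4
  have t1' : 0 ≤ 6 / 7 * (17/1250) * ((2 - N) * (N * (H56.dt u u / p +
      2 * (7 / 12 * (-(17/2500 - 23/5000 * N)) / (17/1250)) * H56.dt g u +
      (7 / 12 * (-(17/2500 - 23/5000 * N)) / (17/1250)) ^ 2 * (p * H56.dt g g)))) := by
    positivity
  refine (mul_pos_iff_of_pos_left hN).1 ?_
  generalize H56.dt u u / p = Up at *
  generalize H56.dt g u = gu at *
  generalize H56.dt g z = gz at *
  generalize H56.dt g g = gg at *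
  generalize H56.dt z z = zz at *
  have key : N * (17/1250 * (2 - N) * (6 / 7 * Up + 11 * p - 36 * N ^ 2 + 90 * κ * N ^ 3 -
        54 * N ^ 4) +
      (-(17/1250)) * (gu - 6 * N * gg + 9 * N ^ 2 * (κ * gg + σ * gz)) +
      (26/125 - 41/100 * N + 81/500 * N ^ 2 + p * (2/125 - 23/5000 * N)) *
        (5 / 3 * p + 6 * N ^ 2 - 6 * κ * N ^ 3) +
      N * ((-(41/100) + 81/250 * N + p * (-(23/5000))) * gg +
        (2/125 - 23/5000 * N) * (gu + 3 * N * gg - 3 * N ^ 2 * (κ * gg + σ * gz))) +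
      (N * (-(507/2000 / N ^ 2)) * gg + 507/2000 / N * (5 / 3 * p + 6 * N ^ 2 - 6 * κ * N ^ 3)) +
      (4 * (N - N ^ 2 / 5) ^ 2 - 4 * (3 / 8) * (N - N ^ 2 / 5) - (1 - 2 / 5 * N) ^ 2 * gg)) =
      6 / 7 * (17/1250) * ((2 - N) * (N * (Up +
      2 * (7 / 12 * (-(17/2500 - 23/5000 * N)) / (17/1250)) * gu +
      (7 / 12 * (-(17/2500 - 23/5000 * N)) / (17/1250)) ^ 2 * (p * gg)))) +
      7 / 24 * (17/2500 - 23/5000 * N) ^ 2 / (17/1250) * (2 - N) * (N * (p * (p - gg))) +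
      23/5000 * N * (N * (p * (p - gg))) +
      N * (N * qs0 N κ + qS2 N * p ^ 2 - 51/200 * N * (2 - N) * p) +
      qX N κ * (p - gg - zz) +
      (qY N κ * gg + qX N κ * zz + σ * (N ^ 3 * qw N) * gz) := by
    simp only [qs0, qS2, qX, qY, qw, qA, qC1, qG, qGp]
    field_simp
    ring
  rw [key]
  linarith

/-! ### the certificate -/

variable {M 𝒪 V : Type*} [TopologicalSpace M] [CommRing 𝒪] [Algebra ℝ 𝒪]
    [AddCommGroup V] [Module 𝒪 V] {G : Geo2 M 𝒪 V}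

/-- the regular columns -/
noncomputable def cert : Cert where
  A := ((Fn.const 2).add (Fn.vN.smul (-1))).smul (17/1250)
  B0 := Fn.const 0
  B1 := Fn.const 0
  C0 := ((Fn.const (26/125)).add (Fn.vN.smul (-(41/100)))).add ((Fn.vN.mul Fn.vN).smul (81/500))
  C1 := (Fn.const (2/125)).add (Fn.vN.smul (-(23/5000)))

theorem cert_sm : cert.Sm G where
  A := ((Fn.Sm.const 2).add (Fn.Sm.smul (-1) Fn.Sm.vN)).smul (17/1250)
  B0 := Fn.Sm.const 0
  B1 := Fn.Sm.const 0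
  C0 := ((Fn.Sm.const (26/125)).add (Fn.Sm.smul (-(41/100)) Fn.Sm.vN)).add
    (Fn.Sm.smul (81/500) (Fn.Sm.vN.mul Fn.Sm.vN))
  C1 := (Fn.Sm.const (2/125)).add (Fn.Sm.smul (-(23/5000)) Fn.Sm.vN)

theorem inv_c1 (R g : ℝ) : C1oc R (fun x => g / x) (fun x => -(g / x ^ 2)) := by
  refine ⟨fun x hx => ?_, ?_⟩
  · have hx0 : x ≠ 0 := hx.1.ne'
    refine HasDerivAt.hasDerivWithinAt ?_
    refine HasDerivAt.congr_deriv (f := fun x => g / x)
      ((hasDerivAt_const x g).div (hasDerivAt_id' x) hx0) ?_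
    field_simp
    ring
  · refine (continuousOn_const.div (continuousOn_id.pow 2) ?_).neg
    intro x hx
    exact pow_ne_zero 2 hx.1.ne'

/-- the columns at a point -/
theorem cs_eq (P : Pt) : CS cert.cA cert.cA1 cert.cA2 cert.cA3 P =
    17/1250 * (2 - P.N) * (6 / 7 * (H56.dt P.u P.u / P.p) + 11 * P.p - 36 * P.N ^ 2 +
      90 * P.κ * P.N ^ 3 - 54 * P.N ^ 4) +
      (-(17/1250)) * (H56.dt P.g P.u - 6 * P.N * H56.dt P.g P.g +
        9 * P.N ^ 2 * (P.κ * H56.dt P.g P.g + P.σ * H56.dt P.g P.z)) +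
      (26/125 - 41/100 * P.N + 81/500 * P.N ^ 2 + P.p * (2/125 - 23/5000 * P.N)) *
        (5 / 3 * P.p + 6 * P.N ^ 2 - 6 * P.κ * P.N ^ 3) +
      P.N * ((-(41/100) + 81/250 * P.N + P.p * (-(23/5000))) * H56.dt P.g P.g +
        (2/125 - 23/5000 * P.N) * (H56.dt P.g P.u + 3 * P.N * H56.dt P.g P.g -
          3 * P.N ^ 2 * (P.κ * H56.dt P.g P.g + P.σ * H56.dt P.g P.z))) := by
  have h := Cert.CS_eq cert (fun _ => 0) (fun _ => 0) 0 0 P
  have h0 : Poi (fun _ => 0) (fun _ => 0) 0 0 P = 0 := by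
    unfold Poi; ring
  rw [h0, add_zero] at h
  rw [h]
  unfold H129.RR Cert.co Cert.exP cert H129.dt H56.dt
  simp only [Fn.const, Fn.vN, Fn.smul, Fn.add, Fn.mul, Fin.sum_univ_four]
  ring

/-- **The certificate in `N` only.** -/
theorem nonly : NOnly G E3 aa aa' (3 / 8) := by
  refine ⟨cert.cA, cert.cA1, cert.cA2, cert.cA3, fun x => 507/2000 / x,
    fun x => -(507/2000 / x ^ 2), 1, 1, zero_le_one, zero_le_one, Cert.sm3 cert_sm,
    inv_c1 3 _, by simp, fun x hx => ?_, fun P hP hE hne => ?_⟩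
  · have hx0 : 0 < x := hx.1
    have hx3 : x ≤ 3 := hx.2
    refine ⟨by positivity, ?_, ?_⟩
    · have : 507/2000 / x * x ^ 2 = 507/2000 * x := by field_simp
      show 507/2000 / x * x ^ 2 ≤ 1
      rw [this]; linarith
    · show 0 ≤ 5 / 3 * (507/2000 / x) + x * (-(507/2000 / x ^ 2)) + 1
      have : x * (-(507/2000 / x ^ 2)) = -(507/2000 / x) := by field_simp
      rw [this]
      have : 0 ≤ 507/2000 / x := by positivity
      linarith
  have hN2 : P.N ≤ 2 := by linarith [hP.NM, hP.M0]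
  have hG := dt_self_nonneg' P.g
  have hZ := dt_self_nonneg' P.z
  have hT := dt_self_nonneg' P.t
  have hU := dt_self_nonneg' P.u
  have hp : H56.dt P.g P.g + H56.dt P.z P.z ≤ P.p := by rw [hP.norm]; linarith
  have hp0 : 0 ≤ P.p := by linarith
  refine ⟨?_, ?_, ?_⟩
  · show 0 ≤ 17/1250 * (2 + -1 * P.N)
    linarith
  · show 0 ≤ 1 / 2 * (0 + P.p * 0)
    linarith
  have key : 0 < P.N → 0 < CS cert.cA cert.cA1 cert.cA2 cert.cA3 P +
      (P.N * (-(507/2000 / P.N ^ 2)) * H56.dt P.g P.g + 1 / 2 * (507/2000 / P.N) * P.lN) +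
      1 * (4 * aa P.N ^ 2 - 4 * (3 / 8) * aa P.N - aa' P.N ^ 2 * H56.dt P.g P.g) := by
    intro hN
    have h := main_pos hN hN2 hP.ks hP.kmin' hp hP.u0
    rw [cs_eq]
    unfold Pt.lN aa aa'
    refine h.trans_le (le_of_eq ?_)
    ring
  refine ⟨?_, key⟩
  rcases hP.N0.lt_or_eq with hN | hN
  · exact (key hN).le
  · have hg : P.g = 0 := hE.g0 hN.symm
    rw [cs_eq, hg, ← hN]
    have e1 : H56.dt (0 : Fin 4 → ℝ) 0 = 0 := by simp [H56.dt]
    have e2 : H56.dt (0 : Fin 4 → ℝ) P.u = 0 := by simp [H56.dt]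
    have e3 : H56.dt (0 : Fin 4 → ℝ) P.z = 0 := by simp [H56.dt]
    rw [e1, e2, e3]
    unfold aa
    have : 0 ≤ H56.dt P.u P.u / P.p := by positivity
    norm_num
    nlinarith

end Vale.Agent.P211.H129.NO
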