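import Vale.Agent.P211.H56.CoreOf2

set_option linter.all false

/-! P211 (helper129): certificates for large ratios, without Bochner columns.

`J = Fin 2`, index `0` : `φ = ψ = a`, index `1` : `φ = a`, `ψ = 1`, where `a x = x - x²/5`. -/

namespace Vale.Agent.P211.H129

open Topology Filter MeasureTheory Set
open Vale.Agent.P211 Vale.Agent.P211.S4 Vale.Agent.P211.H56

/-- `a(x) = x - x²/5` -/
noncomputable def aF (x : ℝ) : ℝ := x - x ^ 2 / 5
/-- its derivative -/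
noncomputable def aF' (x : ℝ) : ℝ := 1 - 2 * x / 5

noncomputable def phi2 : Fin 2 → ℝ → ℝ := ![aF, aF]
noncomputable def phi2' : Fin 2 → ℝ → ℝ := ![aF', aF']
noncomputable def psi2 : Fin 2 → ℝ → ℝ := ![aF, fun _ => 1]
noncomputable def psi2' : Fin 2 → ℝ → ℝ := ![aF', fun _ => 0]

theorem aF_cont : Continuous aF := by unfold aF; fun_prop
theorem aF'_cont : Continuous aF' := by unfold aF'; fun_prop

theorem aF_deriv (x : ℝ) : HasDerivAt aF (aF' x) x :=
  HasDerivAt.congr_deriv (f := aF)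
    ((hasDerivAt_id' x).sub (((hasDerivAt_id' x).pow 2).div_const 5)) (by unfold aF'; norm_num)

theorem aF_nonneg {x : ℝ} (h : x ∈ Icc (0 : ℝ) 2) : 0 ≤ aF x := by
  unfold aF; nlinarith [h.1, h.2]

theorem aF_pos {x : ℝ} (h : x ∈ Icc (1 : ℝ) 2) : 0 < aF x := by
  unfold aF; nlinarith [h.1, h.2]

theorem aF'_sq {x : ℝ} (h : x ∈ Ioc (0 : ℝ) 3) : aF' x ^ 2 ≤ 1 := by
  unfold aF'; nlinarith [h.1, h.2]

theorem C1on_of {R : ℝ} {f f' : ℝ → ℝ} (h : ∀ x, HasDerivAt f (f' x) x) (hc : Continuous f') :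
    C1on R f f' := ⟨fun x _ => (h x).hasDerivWithinAt, hc.continuousOn⟩

theorem aF_C1 (R : ℝ) : C1on R aF aF' := C1on_of aF_deriv aF'_cont

theorem one_C1 (R : ℝ) : C1on R (fun _ => (1 : ℝ)) (fun _ => 0) :=
  C1on_of (fun x => hasDerivAt_const x 1) continuous_const

theorem zero_C1 (R : ℝ) : C1on R (fun _ => (0 : ℝ)) (fun _ => 0) :=
  C1on_of (fun x => hasDerivAt_const x 0) continuous_const

/-! hypotheses of `core_of2` for `phi2`, `psi2` -/

theorem phi2_C1 (R : ℝ) (j : Fin 2) : C1on R (phi2 j) (phi2' j) := by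
  fin_cases j
  · exact aF_C1 R
  · exact aF_C1 R

theorem psi2_C1 (R : ℝ) (j : Fin 2) : C1on R (psi2 j) (psi2' j) := by
  fin_cases j
  · exact aF_C1 R
  · exact one_C1 R

theorem phi2_cont (j : Fin 2) : ContinuousOn (phi2 j) (Icc 0 3) := (phi2_C1 3 j).cont
theorem psi2_cont (j : Fin 2) : ContinuousOn (psi2 j) (Icc 0 3) := (psi2_C1 3 j).cont

theorem phi2_nonneg (j : Fin 2) : ∀ x ∈ Icc (0 : ℝ) 2, 0 ≤ phi2 j x := by
  intro x hx
  fin_cases j
  · exact aF_nonneg hx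
  · exact aF_nonneg hx

theorem phi2_pos (j : Fin 2) : ∀ x ∈ Icc (1 : ℝ) 2, 0 < phi2 j x := by
  intro x hx
  fin_cases j
  · exact aF_pos hx
  · exact aF_pos hx

theorem psi2_nonneg (j : Fin 2) : ∀ x ∈ Icc (0 : ℝ) 2, 0 ≤ psi2 j x := by
  intro x hx
  fin_cases j
  · exact aF_nonneg hx
  · exact zero_le_one

theorem psi2_pos (j : Fin 2) : ∀ x ∈ Icc (1 : ℝ) 2, 0 < psi2 j x := by
  intro x hx
  fin_cases j
  · exact aF_pos hx
  · exact zero_lt_one

theorem phi2_zero : phi2 0 = psi2 0 := rfl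

variable {M 𝒪 V : Type*} [TopologicalSpace M] [CommRing 𝒪] [Algebra ℝ 𝒪]
    [AddCommGroup V] [Module 𝒪 V] {G : Geo2 M 𝒪 V}

/-! ### the singular function `g (1 - b x)² / x` -/

theorem inv_C1 (R g b : ℝ) : C1oc R (fun x => g * (1 - b * x) ^ 2 / x)
    (fun x => g * (b ^ 2 - 1 / x ^ 2)) := by
  refine ⟨fun x hx => ?_, ?_⟩
  · have hx0 : x ≠ 0 := hx.1.ne'
    refine HasDerivAt.hasDerivWithinAt ?_
    refine HasDerivAt.congr_deriv (f := fun x => g * (1 - b * x) ^ 2 / x)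
      ((((((hasDerivAt_id' x).const_mul b).const_sub 1).pow 2).const_mul g).div
        (hasDerivAt_id' x) hx0) ?_
    simp
    field_simp
    ring
  · refine continuousOn_const.mul (continuousOn_const.sub (continuousOn_const.div
      (continuousOn_id.pow 2) ?_))
    intro x hx
    exact pow_ne_zero 2 hx.1.ne'

theorem dt_self_nonneg (x : Fin 4 → ℝ) : 0 ≤ H56.dt x x :=
  Finset.sum_nonneg fun i _ => mul_self_nonneg _

/-! ### one variable certificates -/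

/-- A certificate which depends on `N` only: `C0 = cs + c` where `cs = g (1 - b x)²/x` and `c` is
`C¹` on `[0,3]`. -/
theorem cert_of_one {E : Pt → Prop} {s : Fin 2 → ℝ} (hs : 0 < s 1) {m0 g b : ℝ} (hg : 0 ≤ g)
    (hg3 : g ≤ 1 / 6) (hb : 0 ≤ b) (hb1 : b ≤ 1) (hm : 1 ≤ m0 * s 1) {c c' : ℝ → ℝ}
    (hc : C1on 3 c c') (h0 : 3 / 5 ≤ c 0)
    (h1 : ∀ x, 0 < x → x ≤ 2 → 0 ≤ g * (1 - b * x) ^ 2 / x + c x)
    (h2 : ∀ x, 0 < x → x ≤ 2 → aF' x ^ 2 ≤ 5 / 3 * (g * (1 - b * x) ^ 2 / x + c x) +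
      x * (c' x + g * (b ^ 2 - 1 / x ^ 2)))
    (h3 : ∀ x, 0 < x → x ≤ 2 →
      0 < 4 * aF x ^ 2 - 4 * m0 * aF x + 6 * x ^ 2 * (1 - x) * (g * (1 - b * x) ^ 2 / x + c x)) :
    HasCertE G E phi2 phi2' psi2 psi2' s := by
  refine ⟨Set.univ, fun _ _ => 0, fun _ _ => 0, fun _ _ => 0, fun _ _ => 0,
    c, c', fun _ => 0, fun _ => 0, fun x => g * (1 - b * x) ^ 2 / x,
    fun x => g * (b ^ 2 - 1 / x ^ 2), fun _ => 0, fun _ => 0,
    ![0, 1 / s 1 ^ 2], ![0, 4 / s 1 ^ 2], 3, isOpen_univ, fun i => Sm3.const 0, by norm_num, ?_,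
    by simp, rfl, ?_⟩
  · refine ⟨hc, zero_C1 3, inv_C1 3 g b, (zero_C1 3).oc, fun j => (phi2_C1 3 j).oc,
      fun j => (psi2_C1 3 j).oc, phi2_cont, psi2_cont, ?_, ?_, ?_⟩
    · intro j
      fin_cases j
      · exact le_rfl
      · show 0 ≤ 1 / s 1 ^ 2
        positivity
    · intro x hx
      have hx0 : 0 < x := hx.1
      have hx3 : x ≤ 3 := hx.2
      refine ⟨by positivity, ?_, ?_⟩
      · have : g * (1 - b * x) ^ 2 / x * x ^ 2 = g * ((1 - b * x) ^ 2 * x) := by field_simp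
        rw [this]
        have h4 : (1 - b * x) ^ 2 ≤ 4 := by
          have : b * x ≤ 3 := by nlinarith
          have : 0 ≤ b * x := by positivity
          nlinarith
        have h5 : (1 - b * x) ^ 2 * x ≤ 4 * 3 := by
          have := sq_nonneg (1 - b * x)
          nlinarith
        have h6 : 0 ≤ (1 - b * x) ^ 2 * x := by positivity
        nlinarith
      · rw [Fin.sum_univ_two]
        show 2 * (0 * s 0 ^ 2 * aF' x ^ 2 + 1 / s 1 ^ 2 * s 1 ^ 2 * aF' x ^ 2) ≤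
          5 / 3 * (g * (1 - b * x) ^ 2 / x) + x * (g * (b ^ 2 - 1 / x ^ 2)) + 3
        have e1 : 1 / s 1 ^ 2 * s 1 ^ 2 = 1 := by field_simp
        have e2 : x * (g * (b ^ 2 - 1 / x ^ 2)) = g * b ^ 2 * x - g / x := by field_simp
        have e3 : g * (1 - b * x) ^ 2 / x = g / x - 2 * (g * b) + g * b ^ 2 * x := by
          field_simp
          ring
        rw [e1, e2, e3]
        have := aF'_sq hx
        have h4 : 0 ≤ g / x := by positivity
        have h5 : 0 ≤ g * b ^ 2 * x := by positivity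
        have h6 : g * b ≤ 1 / 6 := by nlinarith
        linarith
    · intro x hx
      refine ⟨le_rfl, by norm_num, ?_⟩
      rw [Fin.sum_univ_two]
      show 2 * (0 * aF' x ^ 2 + 1 / s 1 ^ 2 * (0 : ℝ) ^ 2) ≤ 5 / 3 * 0 + x * 0 + 3
      norm_num
  · intro P hP _ _
    refine ⟨mem_univ _, le_rfl, by norm_num, ?_⟩
    -- the main inequality
    have hgg := dt_self_nonneg P.g
    have hzz := dt_self_nonneg P.z
    have htt := dt_self_nonneg P.t
    have hp : H56.dt P.g P.g ≤ P.p := by rw [hP.norm]; linarith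
    have hp0 : 0 ≤ P.p := hgg.trans hp
    have hN2 : P.N ≤ 2 := by linarith [hP.NM, hP.M0]
    have hk : P.κ ≤ 1 := by nlinarith [hP.ks, sq_nonneg P.σ, sq_nonneg (P.κ - 1)]
    have hs0 : s 1 ≠ 0 := hs.ne'
    have hRR : RR (fun _ _ => 0) (fun _ _ => 0) (fun _ _ => 0) (fun _ _ => 0)
        c c' (fun _ => 0) (fun _ => 0) (fun x => g * (1 - b * x) ^ 2 / x)
        (fun x => g * (b ^ 2 - 1 / x ^ 2)) (fun _ => 0)
        (fun _ => 0) ![0, 1 / s 1 ^ 2] ![0, 4 / s 1 ^ 2] s phi2 phi2' psi2 psi2' P =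
        P.N * (c' P.N + g * (b ^ 2 - 1 / P.N ^ 2)) * H56.dt P.g P.g +
        (g * (1 - b * P.N) ^ 2 / P.N + c P.N) * (5 / 3 * P.p + 6 * P.N ^ 2 - 6 * P.κ * P.N ^ 3) +
        (4 * aF P.N ^ 2 - 4 * (1 / s 1) * aF P.N - aF' P.N ^ 2 * H56.dt P.g P.g) := by
      unfold RR Pt.col Pt.PP Pt.lN
      rw [Fin.sum_univ_two]
      simp only [phi2, phi2', psi2, psi2', Matrix.cons_val_zero, Matrix.cons_val_one]
      generalize g * (1 - b * P.N) ^ 2 / P.N = y1
      generalize g * (b ^ 2 - 1 / P.N ^ 2) = y2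
      field_simp
      ring
    rw [hRR]
    have hm' : 1 / s 1 ≤ m0 := by
      rw [div_le_iff₀ hs]; exact hm
    rcases eq_or_lt_of_le hP.N0 with h | h
    · refine ⟨?_, fun h4 => absurd h4 (by rw [← h]; exact lt_irrefl _)⟩
      rw [← h]
      simp only [aF, aF']
      norm_num
      nlinarith
    · have e1 := h1 P.N h hN2
      have e2 := h2 P.N h hN2
      have e3 := h3 P.N h hN2
      have a0 : 0 ≤ aF P.N := aF_nonneg ⟨h.le, hN2⟩
      have f1 : 0 ≤ (g * (1 - b * P.N) ^ 2 / P.N + c P.N) * (P.p - H56.dt P.g P.g) :=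
        mul_nonneg e1 (sub_nonneg.2 hp)
      have f2 : 0 ≤ (5 / 3 * (g * (1 - b * P.N) ^ 2 / P.N + c P.N) +
        P.N * (c' P.N + g * (b ^ 2 - 1 / P.N ^ 2)) - aF' P.N ^ 2) * H56.dt P.g P.g :=
        mul_nonneg (sub_nonneg.2 e2) hgg
      have f3 : 0 ≤ (m0 - 1 / s 1) * aF P.N := mul_nonneg (sub_nonneg.2 hm') a0
      have f4 : 0 ≤ (g * (1 - b * P.N) ^ 2 / P.N + c P.N) * (6 * P.N ^ 3 * (1 - P.κ)) :=
        mul_nonneg e1 (mul_nonneg (by positivity) (sub_nonneg.2 hk))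
      have key : 0 < P.N * (c' P.N + g * (b ^ 2 - 1 / P.N ^ 2)) * H56.dt P.g P.g +
        (g * (1 - b * P.N) ^ 2 / P.N + c P.N) * (5 / 3 * P.p + 6 * P.N ^ 2 - 6 * P.κ * P.N ^ 3) +
        (4 * aF P.N ^ 2 - 4 * (1 / s 1) * aF P.N - aF' P.N ^ 2 * H56.dt P.g P.g) := by
        generalize g * (1 - b * P.N) ^ 2 / P.N + c P.N = y at *
        generalize c' P.N + g * (b ^ 2 - 1 / P.N ^ 2) = y' at *
        nlinarith [f1, f2, f3, f4, e3]
      exact ⟨key.le, fun _ _ => key⟩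

/-! ### the certificate for `s 1 ≥ 5` -/

noncomputable def c5 (x : ℝ) : ℝ := 3 / 5 - 2699 / 10000 * x + 17 / 550 * x ^ 2 + 1 / 800 * x ^ 3
noncomputable def c5' (x : ℝ) : ℝ := - 2699 / 10000 + 17 / 275 * x + 3 / 800 * x ^ 2

theorem c5_C1 : C1on 3 c5 c5' := by
  refine C1on_of (fun x => ?_) (by unfold c5'; fun_prop)
  refine HasDerivAt.congr_deriv (f := c5)
    (((((hasDerivAt_id' x).const_mul (2699 / 10000)).const_sub (3 / 5)).add
    (((hasDerivAt_id' x).pow 2).const_mul (17 / 550))).add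
    (((hasDerivAt_id' x).pow 3).const_mul (1 / 800))) ?_
  unfold c5'
  norm_num
  ring

theorem cert5 {E : Pt → Prop} {s : Fin 2 → ℝ} (hs : 5 ≤ s 1) :
    HasCertE G E phi2 phi2' psi2 psi2' s := by
  refine cert_of_one (by linarith) (m0 := 1 / 5) (g := 7 / 50) (b := 2 / 5) (by norm_num)
    (by norm_num) (by norm_num) (by norm_num) (by linarith) c5_C1 (by unfold c5; norm_num)
    (fun x h1 h2 => ?_) (fun x h1 h2 => ?_) (fun x h1 h2 => ?_)
  · have e : (7 / 50) * (1 - 2 / 5 * x) ^ 2 / x + c5 x =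
        (7 / 50 + 61 / 125 * x - 99 / 400 * x ^ 2 + 17 / 550 * x ^ 3 + 1 / 800 * x ^ 4) / x := by
      unfold c5
      field_simp
      ring
    rw [e]
    refine div_nonneg ?_ h1.le
    nlinarith [mul_nonneg h1.le (sub_nonneg.2 h2),
      mul_nonneg (mul_nonneg h1.le h1.le) (sub_nonneg.2 h2)]
  · have e : 5 / 3 * ((7 / 50) * (1 - 2 / 5 * x) ^ 2 / x + c5 x) +
        x * (c5' x + (7 / 50) * ((2 / 5) ^ 2 - 1 / x ^ 2)) - aF' x ^ 2 =
        2 / 3 * (7 / 50) * (1 - x / 2) ^ 4 / x := by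
      unfold c5 c5' aF'
      field_simp
      ring
    have : 0 ≤ 2 / 3 * (7 / 50) * (1 - x / 2) ^ 4 / x := by positivity
    linarith
  · have e : 4 * aF x ^ 2 - 4 * (1 / 5) * aF x +
        6 * x ^ 2 * (1 - x) * ((7 / 50) * (1 - 2 / 5 * x) ^ 2 / x + c5 x) =
        x * (1 / 25 + 781 / 125 * x - 6013 / 1000 * x ^ 2 + 4027 / 2200 * x ^ 3
          - 783 / 4400 * x ^ 4 - 3 / 400 * x ^ 5) := by
      unfold c5 aF
      field_simp
      ring
    rw [e]
    refine mul_pos h1 ?_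
    nlinarith [mul_nonneg h1.le (sub_nonneg.2 h2),
      mul_nonneg (mul_nonneg h1.le h1.le) (sub_nonneg.2 h2),
      mul_nonneg (mul_nonneg (mul_nonneg h1.le h1.le) h1.le) (sub_nonneg.2 h2)]

/-! ### multipliers only -/

theorem cert_mult {E : Pt → Prop} {s : Fin 2 → ℝ} (hs : 0 < s 1) (h : 6 * s 1 < 5 * s 0 + 1) :
    HasCertE G E phi2 phi2' psi2 psi2' s := by
  refine ⟨Set.univ, fun _ _ => 0, fun _ _ => 0, fun _ _ => 0, fun _ _ => 0,
    fun _ => 0, fun _ => 0, fun _ => 0, fun _ => 0, fun _ => 0, fun _ => 0, fun _ => 0, fun _ => 0,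
    fun _ => 0, ![1, -((s 0 + 1 / 5) / s 1)], 0, isOpen_univ, fun i => Sm3.const 0, le_rfl, ?_,
    rfl, rfl, ?_⟩
  · refine ⟨zero_C1 3, zero_C1 3, (zero_C1 3).oc, (zero_C1 3).oc, fun j => (phi2_C1 3 j).oc,
      fun j => (psi2_C1 3 j).oc, phi2_cont, psi2_cont, fun _ => le_rfl, ?_, ?_⟩
    · intro x hx
      simp
    · intro x hx
      simp
  · intro P hP _ _
    have hs0 : s 1 ≠ 0 := hs.ne'
    have hRR : RR (fun _ _ => 0) (fun _ _ => 0) (fun _ _ => 0) (fun _ _ => 0)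
        (fun _ => 0) (fun _ => 0) (fun _ => 0) (fun _ => 0) (fun _ => 0) (fun _ => 0)
        (fun _ => 0) (fun _ => 0) (fun _ => 0) ![1, -((s 0 + 1 / 5) / s 1)] s phi2 phi2' psi2 psi2'
        P = (s 0 + 1 / 5) / s 1 - 1 / 5 * aF P.N - aF P.M := by
      unfold RR Pt.col Pt.PP
      rw [Fin.sum_univ_two]
      simp only [phi2, phi2', psi2, psi2', Matrix.cons_val_zero, Matrix.cons_val_one]
      field_simp
      ring
    rw [hRR]
    have key : 0 < (s 0 + 1 / 5) / s 1 - 1 / 5 * aF P.N - aF P.M := by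
      have h1 : 6 / 5 < (s 0 + 1 / 5) / s 1 := by
        rw [lt_div_iff₀ hs]; linarith
      have h2 : 1 / 5 * aF P.N + aF P.M ≤ 6 / 5 := by
        unfold aF
        nlinarith [hP.N0, hP.M0, hP.NM, mul_nonneg hP.N0 hP.M0, sq_nonneg (P.N + P.M - 2)]
      linarith
    exact ⟨mem_univ _, le_rfl, by norm_num, key.le, fun _ _ => key⟩

/-- **Reduction to bounded ratios**: only `s 0 < 29/5` and `5 s 0 + 1 ≤ 6 s 1 < 30` remain. -/
theorem reduce5 {E : Pt → Prop}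
    (H : ∀ s : Fin 2 → ℝ, 1 ≤ s 0 → s 0 < 29 / 5 → 5 * s 0 + 1 ≤ 6 * s 1 → s 1 < 5 →
      HasCertE G E phi2 phi2' psi2 psi2' s)
    (s : Fin 2 → ℝ) (hs : ∀ j, 0 < s j) (h1 : 1 ≤ s 0) :
    HasCertE G E phi2 phi2' psi2 psi2' s := by
  rcases le_or_gt 5 (s 1) with h | h
  · exact cert5 h
  · rcases lt_or_ge (6 * s 1) (5 * s 0 + 1) with h2 | h2
    · exact cert_mult (hs 1) h2
    · exact H s h1 (by linarith) h2 h

/-- From certificates with the single index `0`. -/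
theorem lift1 {E : Pt → Prop} {s : Fin 2 → ℝ}
    (h : HasCertE G E (fun _ : Unit => aF) (fun _ => aF') (fun _ => aF) (fun _ => aF')
      (fun _ => s 0)) :
    HasCertE G E phi2 phi2' psi2 psi2' s := by
  obtain ⟨Ω, A, A1, A2, A3, c, c', d, d', cs, cs', ds, ds', Λ, γ, B, hΩ, hA, hB, hc, hcs0, hds0,
    hP⟩ := h
  refine ⟨Ω, A, A1, A2, A3, c, c', d, d', cs, cs', ds, ds', ![Λ (), 0], ![γ (), 0], B, hΩ, hA, hB,
    ?_, hcs0, hds0, ?_⟩
  · refine ⟨hc.fc, hc.fd, hc.fcs, hc.fds, fun j => (phi2_C1 3 j).oc, fun j => (psi2_C1 3 j).oc,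
      phi2_cont, psi2_cont, ?_, ?_, ?_⟩
    · intro j
      fin_cases j
      · exact hc.Λ0 ()
      · exact le_rfl
    · intro x hx
      obtain ⟨h1, h2, h3⟩ := hc.hcs x hx
      refine ⟨h1, h2, ?_⟩
      rw [Fin.sum_univ_two]
      simp only [Finset.univ_unique, Finset.sum_singleton] at h3
      show 2 * (Λ () * s 0 ^ 2 * aF' x ^ 2 + 0 * s 1 ^ 2 * aF' x ^ 2) ≤ _
      have : 2 * (Λ () * s 0 ^ 2 * aF' x ^ 2) ≤ 5 / 3 * cs x + x * cs' x + B := h3
      linarith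
    · intro x hx
      obtain ⟨h1, h2, h3⟩ := hc.hds x hx
      refine ⟨h1, h2, ?_⟩
      rw [Fin.sum_univ_two]
      simp only [Finset.univ_unique, Finset.sum_singleton] at h3
      show 2 * (Λ () * aF' x ^ 2 + 0 * (0 : ℝ) ^ 2) ≤ _
      have : 2 * (Λ () * aF' x ^ 2) ≤ 5 / 3 * ds x + x * ds' x + B := h3
      linarith
  · intro P hok hE hne
    obtain ⟨k1, k2, k3, k4, k5⟩ := hP P hok hE hne
    have hRR : RR A A1 A2 A3 c c' d d' cs cs' ds ds' ![Λ (), 0] ![γ (), 0] s phi2 phi2' psi2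
        psi2' P = RR A A1 A2 A3 c c' d d' cs cs' ds ds' Λ γ (fun _ => s 0) (fun _ : Unit => aF)
          (fun _ => aF') (fun _ => aF) (fun _ => aF') P := by
      unfold RR
      rw [Fin.sum_univ_two]
      simp only [phi2, phi2', psi2, psi2', Matrix.cons_val_zero, Matrix.cons_val_one,
        Finset.univ_unique, Finset.sum_singleton, zero_mul, add_zero]
    rw [hRR]
    exact ⟨k1, k2, k3, k4, k5⟩

end Vale.Agent.P211.H129
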