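import Vale.Agent.P211.H626.Fn

set_option linter.all false
set_option maxRecDepth 4000

/-! P211 (helper129): polynomial inequalities for the certificate in `N` only, `m0 = 3/8`. -/

namespace Vale.Agent.P211.H129.NO

noncomputable def qA (N : ℝ) : ℝ := 17/1250 * (2 - N)
noncomputable def qC1 (N : ℝ) : ℝ := 2/125 - 23/5000 * N
/-- `N C0` -/
noncomputable def qG (N : ℝ) : ℝ := 507/2000 + 26/125 * N - 41/100 * N ^ 2 + 81/500 * N ^ 3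
/-- `N² C0'` -/
noncomputable def qGp (N : ℝ) : ℝ := -(507/2000) - 41/100 * N ^ 2 + 81/250 * N ^ 3
noncomputable def qs0 (N k : ℝ) : ℝ := qA N * (-(36 * N) + 90 * k * N ^ 2 - 54 * N ^ 3) +
  6 * (1 - k * N) * qG N + 4 * N * (1 - N / 5) ^ 2 - 4 * (3 / 8) * (1 - N / 5)
noncomputable def qS2 (N : ℝ) : ℝ := 5 / 3 * qC1 N + N * (-(23/5000)) -
  7 / 24 * (2 - N) * (17/2500 - 23/5000 * N) ^ 2 / (17/1250)
noncomputable def qX (N k : ℝ) : ℝ := 11 * N * qA N + 5 / 3 * qG N + 6 * N ^ 3 * (1 - k * N) * qC1 N +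
  51/200 * N ^ 2 * (2 - N)
noncomputable def qY (N k : ℝ) : ℝ := qX N k + (6 * (17/1250) * N ^ 2 - 9 * (17/1250) * k * N ^ 3) +
  qGp N + 3 * N ^ 3 * (1 - k * N) * qC1 N - N * (1 - 2 / 5 * N) ^ 2
noncomputable def qw (N : ℝ) : ℝ := -(9 * (17/1250)) - 3 * N * qC1 N
noncomputable def qv (N : ℝ) : ℝ := 9 * N * qC1 N + 9 * (17/1250)
noncomputable def qd (N : ℝ) : ℝ := (N + 1) * (2 - N) ^ 2

theorem s0ma {N : ℝ} (h0 : 0 ≤ N) (h1 : N ≤ 1) :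
    1/100 ≤ qs0 N (-1) := by
  have key : ∀ x y : ℝ, 0 ≤ x → 0 ≤ y → 0 ≤ 11/1000 * y ^ 4 + 30669/5000 * x ^ 1 * y ^ 3 + 2713/200 * x ^ 2 * y ^ 2 + 35999/5000 * x ^ 3 * y ^ 1 + 183/125 * x ^ 4 := by
    intro x y hx hy
    positivity
  have h := key N (1 - N) h0 (sub_nonneg.2 h1)
  refine le_of_sub_nonneg (h.trans (le_of_eq ?_))
  simp only [qs0, qX, qY, qS2, qw, qv, qd, qA, qC1, qG, qGp]
  ring

theorem d1ma {N : ℝ} (h0 : 0 ≤ N) (h1 : N ≤ 1) :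
    1/10000 ≤ 4 * qs0 N (-1) * qS2 N - (51 / 200) ^ 2 * N * (2 - N) ^ 2 := by
  have key : ∀ x y : ℝ, 0 ≤ x → 0 ≤ y → 0 ≤ 9867/5000000 * y ^ 7 + 53138753/150000000 * x ^ 1 * y ^ 6 + 113134059/68000000 * x ^ 2 * y ^ 5 + 10073357817/3400000000 * x ^ 3 * y ^ 4 + 25563748463/10200000000 * x ^ 4 * y ^ 3 + 10750917847/10200000000 * x ^ 5 * y ^ 2 + 2194333603/10200000000 * x ^ 6 * y ^ 1 + 19548709/1020000000 * x ^ 7 := by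
    intro x y hx hy
    positivity
  have h := key N (1 - N) h0 (sub_nonneg.2 h1)
  refine le_of_sub_nonneg (h.trans (le_of_eq ?_))
  simp only [qs0, qX, qY, qS2, qw, qv, qd, qA, qC1, qG, qGp]
  ring

theorem xma {N : ℝ} (h0 : 0 ≤ N) (h1 : N ≤ 1) :
    1/10 ≤ qX N (-1) := by
  have key : ∀ x y : ℝ, 0 ≤ x → 0 ≤ y → 0 ≤ 129/400 * y ^ 5 + 67751/30000 * x ^ 1 * y ^ 4 + 82283/15000 * x ^ 2 * y ^ 3 + 7803/1250 * x ^ 3 * y ^ 2 + 105527/30000 * x ^ 4 * y ^ 1 + 23917/30000 * x ^ 5 := by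
    intro x y hx hy
    positivity
  have h := key N (1 - N) h0 (sub_nonneg.2 h1)
  refine le_of_sub_nonneg (h.trans (le_of_eq ?_))
  simp only [qs0, qX, qY, qS2, qw, qv, qd, qA, qC1, qG, qGp]
  ring

theorem s0mb {N : ℝ} (h0 : 1 ≤ N) (h1 : N ≤ 2) :
    1/100 ≤ qs0 N (-1) := by
  have key : ∀ x y : ℝ, 0 ≤ x → 0 ≤ y → 0 ≤ 183/125 * y ^ 4 + 22561/5000 * x ^ 1 * y ^ 3 + 27511/5000 * x ^ 2 * y ^ 2 + 42883/5000 * x ^ 3 * y ^ 1 + 7829/1000 * x ^ 4 := by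
    intro x y hx hy
    positivity
  have h := key (N - 1) (2 - N) (sub_nonneg.2 h0) (sub_nonneg.2 h1)
  refine le_of_sub_nonneg (h.trans (le_of_eq ?_))
  simp only [qs0, qX, qY, qS2, qw, qv, qd, qA, qC1, qG, qGp]
  ring

theorem d1mb {N : ℝ} (h0 : 1 ≤ N) (h1 : N ≤ 2) :
    1/10000 ≤ 4 * qs0 N (-1) * qS2 N - (51 / 200) ^ 2 * N * (2 - N) ^ 2 := by
  have key : ∀ x y : ℝ, 0 ≤ x → 0 ≤ y → 0 ≤ 19548709/1020000000 * y ^ 7 + 31910921/600000000 * x ^ 1 * y ^ 6 + 839830171/10200000000 * x ^ 2 * y ^ 5 + 1673933009/3400000000 * x ^ 3 * y ^ 4 + 14126193547/10200000000 * x ^ 4 * y ^ 3 + 1952632033/1275000000 * x ^ 5 * y ^ 2 + 139031723/212500000 * x ^ 6 * y ^ 1 + 83491/1250000 * x ^ 7 := by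
    intro x y hx hy
    positivity
  have h := key (N - 1) (2 - N) (sub_nonneg.2 h0) (sub_nonneg.2 h1)
  refine le_of_sub_nonneg (h.trans (le_of_eq ?_))
  simp only [qs0, qX, qY, qS2, qw, qv, qd, qA, qC1, qG, qGp]
  ring

theorem xmb {N : ℝ} (h0 : 1 ≤ N) (h1 : N ≤ 2) :
    1/10 ≤ qX N (-1) := by
  have key : ∀ x y : ℝ, 0 ≤ x → 0 ≤ y → 0 ≤ 23917/30000 * y ^ 5 + 133643/30000 * x ^ 1 * y ^ 4 + 12489/1250 * x ^ 2 * y ^ 3 + 169889/15000 * x ^ 3 * y ^ 2 + 193247/30000 * x ^ 4 * y ^ 1 + 14217/10000 * x ^ 5 := by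
    intro x y hx hy
    positivity
  have h := key (N - 1) (2 - N) (sub_nonneg.2 h0) (sub_nonneg.2 h1)
  refine le_of_sub_nonneg (h.trans (le_of_eq ?_))
  simp only [qs0, qX, qY, qS2, qw, qv, qd, qA, qC1, qG, qGp]
  ring

theorem s0pa {N : ℝ} (h0 : 0 ≤ N) (h1 : N ≤ 1) :
    1/100 ≤ qs0 N 1 := by
  have key : ∀ x y : ℝ, 0 ≤ x → 0 ≤ y → 0 ≤ 11/1000 * y ^ 4 + 15459/5000 * x ^ 1 * y ^ 3 + 6839/1000 * x ^ 2 * y ^ 2 + 26729/5000 * x ^ 3 * y ^ 1 + 27/20 * x ^ 4 := by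
    intro x y hx hy
    positivity
  have h := key N (1 - N) h0 (sub_nonneg.2 h1)
  refine le_of_sub_nonneg (h.trans (le_of_eq ?_))
  simp only [qs0, qX, qY, qS2, qw, qv, qd, qA, qC1, qG, qGp]
  ring

theorem d1pa {N : ℝ} (h0 : 0 ≤ N) (h1 : N ≤ 1) :
    1/10000 ≤ 4 * qs0 N 1 * qS2 N - (51 / 200) ^ 2 * N * (2 - N) ^ 2 := by
  have key : ∀ x y : ℝ, 0 ≤ x → 0 ≤ y → 0 ≤ 9867/5000000 * y ^ 7 + 8086733/150000000 * x ^ 1 * y ^ 6 + 69073979/340000000 * x ^ 2 * y ^ 5 + 1203685517/3400000000 * x ^ 3 * y ^ 4 + 3734959433/10200000000 * x ^ 4 * y ^ 3 + 2391848077/10200000000 * x ^ 5 * y ^ 2 + 858886753/10200000000 * x ^ 6 * y ^ 1 + 37939/3000000 * x ^ 7 := by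
    intro x y hx hy
    positivity
  have h := key N (1 - N) h0 (sub_nonneg.2 h1)
  refine le_of_sub_nonneg (h.trans (le_of_eq ?_))
  simp only [qs0, qX, qY, qS2, qw, qv, qd, qA, qC1, qG, qGp]
  ring

theorem xpa {N : ℝ} (h0 : 0 ≤ N) (h1 : N ≤ 1) :
    1/10 ≤ qX N 1 := by
  have key : ∀ x y : ℝ, 0 ≤ x → 0 ≤ y → 0 ≤ 129/400 * y ^ 5 + 67751/30000 * x ^ 1 * y ^ 4 + 82283/15000 * x ^ 2 * y ^ 3 + 7803/1250 * x ^ 3 * y ^ 2 + 99767/30000 * x ^ 4 * y ^ 1 + 19813/30000 * x ^ 5 := by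
    intro x y hx hy
    positivity
  have h := key N (1 - N) h0 (sub_nonneg.2 h1)
  refine le_of_sub_nonneg (h.trans (le_of_eq ?_))
  simp only [qs0, qX, qY, qS2, qw, qv, qd, qA, qC1, qG, qGp]
  ring

theorem s0pb {N : ℝ} (h0 : 1 ≤ N) (h1 : N ≤ 2) :
    1/100 ≤ qs0 N 1 := by
  have key : ∀ x y : ℝ, 0 ≤ x → 0 ≤ y → 0 ≤ 27/20 * y ^ 4 + 27271/5000 * x ^ 1 * y ^ 3 + 35821/5000 * x ^ 2 * y ^ 2 + 16573/5000 * x ^ 3 * y ^ 1 + 17/1000 * x ^ 4 := by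
    intro x y hx hy
    positivity
  have h := key (N - 1) (2 - N) (sub_nonneg.2 h0) (sub_nonneg.2 h1)
  refine le_of_sub_nonneg (h.trans (le_of_eq ?_))
  simp only [qs0, qX, qY, qS2, qw, qv, qd, qA, qC1, qG, qGp]
  ring

theorem d1pb {N : ℝ} (h0 : 1 ≤ N) (h1 : N ≤ 2) :
    1/10000 ≤ 4 * qs0 N 1 * qS2 N - (51 / 200) ^ 2 * N * (2 - N) ^ 2 := by
  have key : ∀ x y : ℝ, 0 ≤ x → 0 ≤ y → 0 ≤ 37939/3000000 * y ^ 7 + 947009647/10200000000 * x ^ 1 * y ^ 6 + 2920585441/10200000000 * x ^ 2 * y ^ 5 + 1589414719/3400000000 * x ^ 3 * y ^ 4 + 4219279687/10200000000 * x ^ 4 * y ^ 3 + 231643273/1275000000 * x ^ 5 * y ^ 2 + 6359823/212500000 * x ^ 6 * y ^ 1 + 163/1250000 * x ^ 7 := by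
    intro x y hx hy
    positivity
  have h := key (N - 1) (2 - N) (sub_nonneg.2 h0) (sub_nonneg.2 h1)
  refine le_of_sub_nonneg (h.trans (le_of_eq ?_))
  simp only [qs0, qX, qY, qS2, qw, qv, qd, qA, qC1, qG, qGp]
  ring

theorem xpb {N : ℝ} (h0 : 1 ≤ N) (h1 : N ≤ 2) :
    1/10 ≤ qX N 1 := by
  have key : ∀ x y : ℝ, 0 ≤ x → 0 ≤ y → 0 ≤ 19813/30000 * y ^ 5 + 98363/30000 * x ^ 1 * y ^ 4 + 7569/1250 * x ^ 2 * y ^ 3 + 74849/15000 * x ^ 3 * y ^ 2 + 49247/30000 * x ^ 4 * y ^ 1 + 1161/10000 * x ^ 5 := by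
    intro x y hx hy
    positivity
  have h := key (N - 1) (2 - N) (sub_nonneg.2 h0) (sub_nonneg.2 h1)
  refine le_of_sub_nonneg (h.trans (le_of_eq ?_))
  simp only [qs0, qX, qY, qS2, qw, qv, qd, qA, qC1, qG, qGp]
  ring

theorem yma {N : ℝ} (h0 : 0 ≤ N) (h1 : N ≤ 1) :
    0 ≤ qY N (-1) := by
  have key : ∀ x y : ℝ, 0 ≤ x → 0 ≤ y → 0 ≤ 169/1000 * y ^ 5 + 7363/15000 * x ^ 1 * y ^ 4 + 1583/3750 * x ^ 2 * y ^ 3 + 2283/5000 * x ^ 3 * y ^ 2 + 6509/7500 * x ^ 4 * y ^ 1 + 1763/3750 * x ^ 5 := by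
    intro x y hx hy
    positivity
  have h := key N (1 - N) h0 (sub_nonneg.2 h1)
  refine le_of_sub_nonneg (h.trans (le_of_eq ?_))
  simp only [qs0, qX, qY, qS2, qw, qv, qd, qA, qC1, qG, qGp]
  ring

theorem ypa {N : ℝ} (h0 : 0 ≤ N) (h1 : N ≤ 1) :
    0 ≤ qY N 1 := by
  have key : ∀ x y : ℝ, 0 ≤ x → 0 ≤ y → 0 ≤ 169/1000 * y ^ 5 + 7363/15000 * x ^ 1 * y ^ 4 + 1583/3750 * x ^ 2 * y ^ 3 + 1059/5000 * x ^ 3 * y ^ 2 + 677/7500 * x ^ 4 * y ^ 1 + 151/7500 * x ^ 5 := by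
    intro x y hx hy
    positivity
  have h := key N (1 - N) h0 (sub_nonneg.2 h1)
  refine le_of_sub_nonneg (h.trans (le_of_eq ?_))
  simp only [qs0, qX, qY, qS2, qw, qv, qd, qA, qC1, qG, qGp]
  ring

theorem ypb {N : ℝ} (h0 : 1 ≤ N) (h1 : N ≤ 2) :
    0 ≤ qY N 1 := by
  have key : ∀ x y : ℝ, 0 ≤ x → 0 ≤ y → 0 ≤ 151/7500 * y ^ 5 + 833/7500 * x ^ 1 * y ^ 4 + 59/200 * x ^ 2 * y ^ 3 + 2197/7500 * x ^ 3 * y ^ 2 + 991/15000 * x ^ 4 * y ^ 1 + 93/5000 * x ^ 5 := by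
    intro x y hx hy
    positivity
  have h := key (N - 1) (2 - N) (sub_nonneg.2 h0) (sub_nonneg.2 h1)
  refine le_of_sub_nonneg (h.trans (le_of_eq ?_))
  simp only [qs0, qX, qY, qS2, qw, qv, qd, qA, qC1, qG, qGp]
  ring

theorem pma {N : ℝ} (h0 : 0 ≤ N) (h1 : N ≤ 1) :
    0 ≤ qX N (-1) * qY N 1 + qX N 1 * qY N (-1) - (N ^ 3 * qw N) ^ 2 := by
  have key : ∀ x y : ℝ, 0 ≤ x → 0 ≤ y → 0 ≤ 28561/200000 * y ^ 10 + 10103327/7500000 * x ^ 1 * y ^ 9 + 1182778523/225000000 * x ^ 2 * y ^ 8 + 514178617/45000000 * x ^ 3 * y ^ 7 + 1817957053/112500000 * x ^ 4 * y ^ 6 + 3921647959/225000000 * x ^ 5 * y ^ 5 + 1858131071/112500000 * x ^ 6 * y ^ 4 + 3002530261/225000000 * x ^ 7 * y ^ 3 + 1720489907/225000000 * x ^ 8 * y ^ 2 + 568947029/225000000 * x ^ 9 * y ^ 1 + 9873163/28125000 * x ^ 10 := by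
    intro x y hx hy
    positivity
  have h := key N (1 - N) h0 (sub_nonneg.2 h1)
  refine le_of_sub_nonneg (h.trans (le_of_eq ?_))
  simp only [qs0, qX, qY, qS2, qw, qv, qd, qA, qC1, qG, qGp]
  ring

theorem e1b {N : ℝ} (h0 : 1 ≤ N) (h1 : N ≤ 2) :
    0 ≤ qX N 1 * qY N 1 + qd N / 2 * (qX N 1 * qv N + 6 * N * qC1 N * qY N 1) - N ^ 3 * qd N * qw N ^ 2 / 4 := by
  have key : ∀ x y : ℝ, 0 ≤ x → 0 ≤ y → 0 ≤ 9873163/56250000 * y ^ 10 + 13726561/9000000 * x ^ 1 * y ^ 9 + 5109816847/900000000 * x ^ 2 * y ^ 8 + 5284563493/450000000 * x ^ 3 * y ^ 7 + 6573379669/450000000 * x ^ 4 * y ^ 6 + 9929240693/900000000 * x ^ 5 * y ^ 5 + 4401519811/900000000 * x ^ 6 * y ^ 4 + 557113253/450000000 * x ^ 7 * y ^ 3 + 4284449/18000000 * x ^ 8 * y ^ 2 + 4058261/75000000 * x ^ 9 * y ^ 1 + 200973/50000000 * x ^ 10 := by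
    intro x y hx hy
    positivity
  have h := key (N - 1) (2 - N) (sub_nonneg.2 h0) (sub_nonneg.2 h1)
  refine le_of_sub_nonneg (h.trans (le_of_eq ?_))
  simp only [qs0, qX, qY, qS2, qw, qv, qd, qA, qC1, qG, qGp]
  ring

theorem e2b {N : ℝ} (h0 : 1 ≤ N) (h1 : N ≤ 2) :
    0 ≤ (qX N 1 + qd N * (6 * N * qC1 N)) * (qY N 1 + qd N * qv N) - qd N * (2 * N ^ 3 - qd N) * qw N ^ 2 / 4 := by
  have key : ∀ x y : ℝ, 0 ≤ x → 0 ≤ y → 0 ≤ 47454671/112500000 * y ^ 10 + 31970227/9000000 * x ^ 1 * y ^ 9 + 2275435709/180000000 * x ^ 2 * y ^ 8 + 11071018669/450000000 * x ^ 3 * y ^ 7 + 12699946339/450000000 * x ^ 4 * y ^ 6 + 1715090759/90000000 * x ^ 5 * y ^ 5 + 636664489/90000000 * x ^ 6 * y ^ 4 + 566105171/450000000 * x ^ 7 * y ^ 3 + 71931629/450000000 * x ^ 8 * y ^ 2 + 4058261/75000000 * x ^ 9 * y ^ 1 + 200973/50000000 * x ^ 10 := by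
    intro x y hx hy
    positivity
  have h := key (N - 1) (2 - N) (sub_nonneg.2 h0) (sub_nonneg.2 h1)
  refine le_of_sub_nonneg (h.trans (le_of_eq ?_))
  simp only [qs0, qX, qY, qS2, qw, qv, qd, qA, qC1, qG, qGp]
  ring

end Vale.Agent.P211.H129.NO
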