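import Mathlib

set_option linter.all false

/-! P211 (helper129): reduction of the pointwise certificate inequality (vectors in `ℝ⁴`) to
finitely many scalar / 3×3 matrix conditions: Schur complement in `u`, S-procedure for
`|g|²+|z|² ≤ p`, vertices in `p` and in `(κ,σ)`. -/

namespace Vale.Agent.P211.H129

/-- dot product in `ℝ⁴` -/
abbrev dt (x y : Fin 4 → ℝ) : ℝ := ∑ i, x i * y i

/-- coefficients of the certificate fields at a point:
`A = A(N,M)`, `B = B0 + p B1`, `C = C0 + p C1` and their partial derivatives. -/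
structure Co where
  A : ℝ
  AN : ℝ
  AM : ℝ
  B0 : ℝ
  B0N : ℝ
  B0M : ℝ
  B1 : ℝ
  B1N : ℝ
  B1M : ℝ
  C0 : ℝ
  C0N : ℝ
  C0M : ℝ
  C1 : ℝ
  C1N : ℝ
  C1M : ℝ

/-- the abstract lower bound of the Poincaré part and of the one-variable columns:
`e0 + e1 p + ek κ N³ + hh |h|² + gh g·h + gg |g|²`. -/
structure Ex where
  e0 : ℝ
  e1 : ℝ
  ek : ℝ
  hh : ℝ
  gh : ℝ
  gg : ℝ

/-- the pointwise integrand -/
noncomputable def RR (c : Co) (e : Ex) (N M p κ σ : ℝ) (u h g z : Fin 4 → ℝ) : ℝ :=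
  c.A * ((6/7) * dt u u / p + 11 * p - 36 * N^2 + 90 * κ * N^3 - 54 * N^4)
  + dt (fun i => c.AN * g i + c.AM * h i)
      (fun i => u i - 6 * N * g i + 9 * N^2 * (κ * g i + σ * z i))
  + (c.B0 + p * c.B1) * ((5/3) * dt h h + 6 * M^2 - 6 * M^3)
  + M * dt (fun i => (c.B0N + p * c.B1N) * g i + (c.B0M + p * c.B1M) * h i
      + c.B1 * (u i + 3 * N * g i - 3 * N^2 * (κ * g i + σ * z i))) h
  + (c.C0 + p * c.C1) * ((5/3) * p + 6 * N^2 - 6 * κ * N^3)
  + N * dt (fun i => (c.C0N + p * c.C1N) * g i + (c.C0M + p * c.C1M) * h i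
      + c.C1 * (u i + 3 * N * g i - 3 * N^2 * (κ * g i + σ * z i))) g
  + (e.e0 + e.e1 * p + e.ek * κ * N^3 + e.hh * dt h h + e.gh * dt g h + e.gg * dt g g)

/-- scalar part, `d = κ N³` -/
noncomputable def Sc (c : Co) (e : Ex) (N M p d : ℝ) : ℝ :=
  c.A * (11 * p - 36 * N^2 + 90 * d - 54 * N^4) + (c.B0 + p * c.B1) * (6 * M^2 - 6 * M^3)
  + (c.C0 + p * c.C1) * ((5/3) * p + 6 * N^2 - 6 * d) + (e.e0 + e.e1 * p + e.ek * d)

/-- coefficient of `|h|²` -/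
noncomputable def Qhh (c : Co) (e : Ex) (N M p : ℝ) : ℝ :=
  (5/3) * (c.B0 + p * c.B1) + M * (c.B0M + p * c.B1M) - (7/24) * (p / c.A) * (c.AM + M * c.B1)^2
    + e.hh
/-- coefficient of `|g|²` -/
noncomputable def Qgg (c : Co) (e : Ex) (N M p κ : ℝ) : ℝ :=
  c.AN * (9 * N^2 * κ - 6 * N) + N * (c.C0N + p * c.C1N) + 3 * N^2 * c.C1 * (1 - N * κ)
    - (7/24) * (p / c.A) * (c.AN + N * c.C1)^2 + e.gg
/-- coefficient of `h·g` -/
noncomputable def Qhg (c : Co) (e : Ex) (N M p κ : ℝ) : ℝ :=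
  c.AM * (9 * N^2 * κ - 6 * N) + M * (c.B0N + p * c.B1N) + 3 * N * M * c.B1 * (1 - N * κ)
    + N * (c.C0M + p * c.C1M) - (7/12) * (p / c.A) * (c.AN + N * c.C1) * (c.AM + M * c.B1) + e.gh
/-- coefficient of `h·z` -/
noncomputable def Qhz (c : Co) (N M σ : ℝ) : ℝ := 3 * N^2 * σ * (3 * c.AM - M * c.B1)
/-- coefficient of `g·z` -/
noncomputable def Qgz (c : Co) (N σ : ℝ) : ℝ := 3 * N^2 * σ * (3 * c.AN - N * c.C1)

/-- scalar quadratic form in three real variables; off-diagonal coefficients are NOT doubled: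
`a h² + b g² + c z² + d h g + e h z + f g z`. -/
noncomputable def q3 (a b c d e f x y w : ℝ) : ℝ :=
  a * x^2 + b * y^2 + c * w^2 + d * (x * y) + e * (x * w) + f * (y * w)

/-- one coordinate of the inequality -/
theorem coord (c : Co) (e : Ex) (N M p κ σ lam u h g z : ℝ) (hA : 0 < c.A) (hp : 0 < p) :
    q3 (Qhh c e N M p) (Qgg c e N M p κ + lam) lam (Qhg c e N M p κ) (Qhz c N M σ) (Qgz c N σ)
      h g z ≤
    c.A * ((6/7) * (u * u) / p)
    + (c.AN * g + c.AM * h) * (u - 6 * N * g + 9 * N^2 * (κ * g + σ * z))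
    + (c.B0 + p * c.B1) * ((5/3) * (h * h))
    + M * (((c.B0N + p * c.B1N) * g + (c.B0M + p * c.B1M) * h
        + c.B1 * (u + 3 * N * g - 3 * N^2 * (κ * g + σ * z))) * h)
    + N * (((c.C0N + p * c.C1N) * g + (c.C0M + p * c.C1M) * h
        + c.C1 * (u + 3 * N * g - 3 * N^2 * (κ * g + σ * z))) * g)
    + (e.hh * (h * h) + e.gh * (g * h) + e.gg * (g * g)) + lam * (g * g + z * z) := by
  have key : 0 ≤ c.A * (6/7) / p *
      (u + (7/12) * (p / c.A) * ((c.AN + N * c.C1) * g + (c.AM + M * c.B1) * h))^2 := by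
    positivity
  have hA' := hA.ne'
  have hp' := hp.ne'
  have id : c.A * ((6/7) * (u * u) / p)
    + (c.AN * g + c.AM * h) * (u - 6 * N * g + 9 * N^2 * (κ * g + σ * z))
    + (c.B0 + p * c.B1) * ((5/3) * (h * h))
    + M * (((c.B0N + p * c.B1N) * g + (c.B0M + p * c.B1M) * h
        + c.B1 * (u + 3 * N * g - 3 * N^2 * (κ * g + σ * z))) * h)
    + N * (((c.C0N + p * c.C1N) * g + (c.C0M + p * c.C1M) * h
        + c.C1 * (u + 3 * N * g - 3 * N^2 * (κ * g + σ * z))) * g)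
    + (e.hh * (h * h) + e.gh * (g * h) + e.gg * (g * g)) + lam * (g * g + z * z) =
    q3 (Qhh c e N M p) (Qgg c e N M p κ + lam) lam (Qhg c e N M p κ) (Qhz c N M σ) (Qgz c N σ)
      h g z + c.A * (6/7) / p *
      (u + (7/12) * (p / c.A) * ((c.AN + N * c.C1) * g + (c.AM + M * c.B1) * h))^2 := by
    unfold q3 Qhh Qgg Qhg Qhz Qgz
    field_simp
    ring
  rw [id]
  linarith

/-- the reduction to the scalar part and a 3×3 form -/
theorem RR_ge (c : Co) (e : Ex) (N M p κ σ lam : ℝ) (u h g z : Fin 4 → ℝ) (hA : 0 < c.A)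
    (hp : 0 < p) (hlam : 0 ≤ lam) (hgz : dt g g + dt z z ≤ p) :
    Sc c e N M p (κ * N^3) - lam * p +
      ∑ i, q3 (Qhh c e N M p) (Qgg c e N M p κ + lam) lam (Qhg c e N M p κ) (Qhz c N M σ)
        (Qgz c N σ) (h i) (g i) (z i) ≤ RR c e N M p κ σ u h g z := by
  have h1 : lam * (dt g g + dt z z) ≤ lam * p := mul_le_mul_of_nonneg_left hgz hlam
  have h2 : ∑ i, q3 (Qhh c e N M p) (Qgg c e N M p κ + lam) lam (Qhg c e N M p κ) (Qhz c N M σ)
        (Qgz c N σ) (h i) (g i) (z i) ≤ ∑ i, (c.A * ((6/7) * (u i * u i) / p)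
    + (c.AN * g i + c.AM * h i) * (u i - 6 * N * g i + 9 * N^2 * (κ * g i + σ * z i))
    + (c.B0 + p * c.B1) * ((5/3) * (h i * h i))
    + M * (((c.B0N + p * c.B1N) * g i + (c.B0M + p * c.B1M) * h i
        + c.B1 * (u i + 3 * N * g i - 3 * N^2 * (κ * g i + σ * z i))) * h i)
    + N * (((c.C0N + p * c.C1N) * g i + (c.C0M + p * c.C1M) * h i
        + c.C1 * (u i + 3 * N * g i - 3 * N^2 * (κ * g i + σ * z i))) * g i)
    + (e.hh * (h i * h i) + e.gh * (g i * h i) + e.gg * (g i * g i))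
    + lam * (g i * g i + z i * z i)) :=
    Finset.sum_le_sum fun i _ => coord c e N M p κ σ lam (u i) (h i) (g i) (z i) hA hp
  have h3 : RR c e N M p κ σ u h g z + lam * (dt g g + dt z z) =
      Sc c e N M p (κ * N^3) + ∑ i, (c.A * ((6/7) * (u i * u i) / p)
    + (c.AN * g i + c.AM * h i) * (u i - 6 * N * g i + 9 * N^2 * (κ * g i + σ * z i))
    + (c.B0 + p * c.B1) * ((5/3) * (h i * h i))
    + M * (((c.B0N + p * c.B1N) * g i + (c.B0M + p * c.B1M) * h i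
        + c.B1 * (u i + 3 * N * g i - 3 * N^2 * (κ * g i + σ * z i))) * h i)
    + N * (((c.C0N + p * c.C1N) * g i + (c.C0M + p * c.C1M) * h i
        + c.C1 * (u i + 3 * N * g i - 3 * N^2 * (κ * g i + σ * z i))) * g i)
    + (e.hh * (h i * h i) + e.gh * (g i * h i) + e.gg * (g i * g i))
    + lam * (g i * g i + z i * z i)) := by
    unfold RR Sc dt
    simp only [Fin.sum_univ_four]
    ring
  linarith

/-! ### vertices -/

/-- `(κ,σ)` lies in the convex hull of the list `P` (dual description) -/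
def Hull (P : List (ℝ × ℝ)) (κ σ : ℝ) : Prop :=
  ∀ f0 f1 f2 : ℝ, (∀ v ∈ P, 0 ≤ f0 + f1 * v.1 + f2 * v.2) → 0 ≤ f0 + f1 * κ + f2 * σ

/-- affine functions of `p` -/
theorem aff_Icc {a b p p0 p1 : ℝ} (h0 : p0 ≤ p) (h1 : p ≤ p1) (ha : 0 ≤ a + b * p0)
    (hb : 0 ≤ a + b * p1) : 0 ≤ a + b * p := by
  rcases le_or_gt 0 b with hb' | hb'
  · nlinarith
  · nlinarith

theorem aff_Ici {a b p p0 : ℝ} (h0 : p0 ≤ p) (ha : 0 ≤ a + b * p0)
    (hb : 0 ≤ b) : 0 ≤ a + b * p := by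
  nlinarith

/-- quadratic functions of `p` by Bernstein coefficients -/
theorem quad_Icc {a b c p p0 p1 : ℝ} (h0 : p0 ≤ p) (h1 : p ≤ p1)
    (q0 : 0 ≤ a + b * p0 + c * p0^2) (q1 : 0 ≤ a + b * ((p0 + p1)/2) + c * (p0 * p1))
    (q2 : 0 ≤ a + b * p1 + c * p1^2) : 0 ≤ a + b * p + c * p^2 := by
  rcases eq_or_lt_of_le (h0.trans h1) with h | h
  · have : p = p0 := le_antisymm (h ▸ h1) h0
    rw [this]; exact q0
  · have hw : 0 < (p1 - p0)^2 := by
      have : 0 < p1 - p0 := by linarith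
      positivity
    have h3 : (a + b * p + c * p^2) * (p1 - p0)^2 = (a + b * p0 + c * p0^2) * (p1 - p)^2 +
        2 * (a + b * ((p0 + p1)/2) + c * (p0 * p1)) * ((p1 - p) * (p - p0)) +
        (a + b * p1 + c * p1^2) * (p - p0)^2 := by ring
    have h4 : 0 ≤ (a + b * p + c * p^2) * (p1 - p0)^2 := by
      rw [h3]
      have e1 : 0 ≤ (p1 - p) * (p - p0) := mul_nonneg (by linarith) (by linarith)
      positivity
    by_contra hc
    push Not at hc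
    nlinarith

theorem quad_Ici {a b c p p0 : ℝ} (h0 : p0 ≤ p)
    (q0 : 0 ≤ a + b * p0 + c * p0^2) (q1 : 0 ≤ b + 2 * c * p0)
    (q2 : 0 ≤ c) : 0 ≤ a + b * p + c * p^2 := by
  have h3 : a + b * p + c * p^2 = (a + b * p0 + c * p0^2) + (b + 2 * c * p0) * (p - p0) +
    c * (p - p0)^2 := by ring
  rw [h3]
  have : 0 ≤ p - p0 := by linarith
  positivity

/-- the 3×3 form (with the S-procedure term `lam0 + lam1 p`) as a function of `p, κ, σ` -/
noncomputable def FF3 (c : Co) (e : Ex) (N M l0 l1 : ℝ) (p κ σ x y w : ℝ) : ℝ :=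
  q3 (Qhh c e N M p) (Qgg c e N M p κ + (l0 + l1 * p)) (l0 + l1 * p) (Qhg c e N M p κ)
    (Qhz c N M σ) (Qgz c N σ) x y w

theorem FF3_ks (c : Co) (e : Ex) (N M l0 l1 p κ σ x y w : ℝ) :
    FF3 c e N M l0 l1 p κ σ x y w = FF3 c e N M l0 l1 p 0 0 x y w +
      (FF3 c e N M l0 l1 p 1 0 x y w - FF3 c e N M l0 l1 p 0 0 x y w) * κ +
      (FF3 c e N M l0 l1 p 0 1 x y w - FF3 c e N M l0 l1 p 0 0 x y w) * σ := by
  unfold FF3 q3 Qhh Qgg Qhg Qhz Qgz
  ring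

theorem FF3_p (c : Co) (e : Ex) (N M l0 l1 p κ σ x y w : ℝ) :
    FF3 c e N M l0 l1 p κ σ x y w = FF3 c e N M l0 l1 0 κ σ x y w +
      (FF3 c e N M l0 l1 1 κ σ x y w - FF3 c e N M l0 l1 0 κ σ x y w) * p := by
  unfold FF3 q3 Qhh Qgg Qhg Qhz Qgz
  ring

/-- slope in `p` -/
noncomputable def FF3' (c : Co) (e : Ex) (N M l0 l1 : ℝ) (κ σ x y w : ℝ) : ℝ :=
  FF3 c e N M l0 l1 1 κ σ x y w - FF3 c e N M l0 l1 0 κ σ x y w

theorem FF3_vert {c : Co} {e : Ex} {N M l0 l1 p κ σ x y w : ℝ} {P : List (ℝ × ℝ)} {p0 p1 : ℝ}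
    (hP : Hull P κ σ) (h0 : p0 ≤ p) (h1 : p ≤ p1)
    (H0 : ∀ v ∈ P, 0 ≤ FF3 c e N M l0 l1 p0 v.1 v.2 x y w)
    (H1 : ∀ v ∈ P, 0 ≤ FF3 c e N M l0 l1 p1 v.1 v.2 x y w) :
    0 ≤ FF3 c e N M l0 l1 p κ σ x y w := by
  rw [FF3_ks]
  apply hP
  intro v hv
  rw [← FF3_ks, FF3_p]
  apply aff_Icc h0 h1
  · rw [← FF3_p]; exact H0 v hv
  · rw [← FF3_p]; exact H1 v hv

theorem FF3_vert_Ici {c : Co} {e : Ex} {N M l0 l1 p κ σ x y w : ℝ} {P : List (ℝ × ℝ)} {p0 : ℝ}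
    (hP : Hull P κ σ) (h0 : p0 ≤ p)
    (H0 : ∀ v ∈ P, 0 ≤ FF3 c e N M l0 l1 p0 v.1 v.2 x y w)
    (H1 : ∀ v ∈ P, 0 ≤ FF3' c e N M l0 l1 v.1 v.2 x y w) :
    0 ≤ FF3 c e N M l0 l1 p κ σ x y w := by
  rw [FF3_ks]
  apply hP
  intro v hv
  rw [← FF3_ks, FF3_p]
  apply aff_Ici h0
  · rw [← FF3_p]; exact H0 v hv
  · exact H1 v hv

/-- main reduction -/
theorem RR_ge_of_forms (c : Co) (e : Ex) (N M p κ σ l0 l1 : ℝ) (u h g z : Fin 4 → ℝ)
    (hA : 0 < c.A) (hp : 0 < p) (hlam : 0 ≤ l0 + l1 * p) (hgz : dt g g + dt z z ≤ p)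
    (hQ : ∀ x y w, 0 ≤ FF3 c e N M l0 l1 p κ σ x y w) :
    Sc c e N M p (κ * N^3) - (l0 + l1 * p) * p ≤ RR c e N M p κ σ u h g z := by
  refine le_trans ?_ (RR_ge c e N M p κ σ (l0 + l1 * p) u h g z hA hp hlam hgz)
  have : 0 ≤ ∑ i, q3 (Qhh c e N M p) (Qgg c e N M p κ + (l0 + l1 * p)) (l0 + l1 * p)
      (Qhg c e N M p κ) (Qhz c N M σ) (Qgz c N σ) (h i) (g i) (z i) :=
    Finset.sum_nonneg fun i _ => hQ _ _ _
  linarith

/-- symmetry `(σ,z) ↦ (-σ,-z)` -/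
theorem RR_neg (c : Co) (e : Ex) (N M p κ σ : ℝ) (u h g z : Fin 4 → ℝ) :
    RR c e N M p κ (-σ) u h g (fun i => -z i) = RR c e N M p κ σ u h g z := by
  unfold RR
  simp only [Fin.sum_univ_four]
  ring

/-- the full octagonal polygon -/
noncomputable def octa : List (ℝ × ℝ) :=
  [(1,0), (1,5/12), (5/12,1), (-5/12,1), (-1,5/12), (-1,0)]

theorem hull_octa {κ σ : ℝ} (h : κ^2 + σ^2 = 1) (hσ : 0 ≤ σ) : Hull octa κ σ := by
  intro f0 f1 f2 H
  have a1 := H (1,0) (by simp [octa])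
  have a2 := H (1,5/12) (by simp [octa])
  have a3 := H (5/12,1) (by simp [octa])
  have a4 := H (-5/12,1) (by simp [octa])
  have a5 := H (-1,5/12) (by simp [octa])
  have a6 := H (-1,0) (by simp [octa])
  simp only at a1 a2 a3 a4 a5 a6
  have k1 : κ ≤ 1 := by nlinarith
  have k2 : -1 ≤ κ := by nlinarith
  have k3 : σ ≤ 1 := by nlinarith
  have k4 : κ + σ ≤ 17/12 := by nlinarith [sq_nonneg (κ - σ)]
  have k5 : -κ + σ ≤ 17/12 := by nlinarith [sq_nonneg (κ + σ)]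
  have e0 : 0 ≤ f0 + f1 * κ := by nlinarith
  rcases le_or_gt 0 f2 with h2 | h2
  · nlinarith
  · -- f2 < 0: move up to the boundary
    rcases le_or_gt (5/12) κ with c1 | c1
    · -- between (5/12,1) and (1,5/12): σmax = 17/12 - κ
      have : 0 ≤ f0 + f1 * κ + f2 * (17/12 - κ) := by nlinarith
      nlinarith
    · rcases le_or_gt κ (-5/12) with c2 | c2
      · have : 0 ≤ f0 + f1 * κ + f2 * (17/12 + κ) := by nlinarith
        nlinarith
      · have : 0 ≤ f0 + f1 * κ + f2 * 1 := by nlinarith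
        nlinarith

/-- half polygon `κ ≥ 0` -/
noncomputable def octaPos : List (ℝ × ℝ) := [(1,0), (1,5/12), (5/12,1), (0,1), (0,0)]

theorem hull_octaPos {κ σ : ℝ} (h : κ^2 + σ^2 = 1) (hσ : 0 ≤ σ) (hκ : 0 ≤ κ) :
    Hull octaPos κ σ := by
  intro f0 f1 f2 H
  have a1 := H (1,0) (by simp [octaPos])
  have a2 := H (1,5/12) (by simp [octaPos])
  have a3 := H (5/12,1) (by simp [octaPos])
  have a4 := H (0,1) (by simp [octaPos])
  have a5 := H (0,0) (by simp [octaPos])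
  simp only at a1 a2 a3 a4 a5
  have k1 : κ ≤ 1 := by nlinarith
  have k3 : σ ≤ 1 := by nlinarith
  have k4 : κ + σ ≤ 17/12 := by nlinarith [sq_nonneg (κ - σ)]
  have e0 : 0 ≤ f0 + f1 * κ := by nlinarith
  rcases le_or_gt 0 f2 with h2 | h2
  · nlinarith
  · rcases le_or_gt (5/12) κ with c1 | c1
    · have : 0 ≤ f0 + f1 * κ + f2 * (17/12 - κ) := by nlinarith
      nlinarith
    · have : 0 ≤ f0 + f1 * κ + f2 * 1 := by nlinarith
      nlinarith

/-- `κ ≥ 1/2` -/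
noncomputable def octaHalf : List (ℝ × ℝ) := [(1,0), (1,5/12), (1/2,11/12), (1/2,0)]

theorem hull_octaHalf {κ σ : ℝ} (h : κ^2 + σ^2 = 1) (hσ : 0 ≤ σ) (hκ : 1/2 ≤ κ) :
    Hull octaHalf κ σ := by
  intro f0 f1 f2 H
  have a1 := H (1,0) (by simp [octaHalf])
  have a2 := H (1,5/12) (by simp [octaHalf])
  have a3 := H (1/2,11/12) (by simp [octaHalf])
  have a4 := H (1/2,0) (by simp [octaHalf])
  simp only at a1 a2 a3 a4
  have k1 : κ ≤ 1 := by nlinarith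
  have k4 : κ + σ ≤ 17/12 := by nlinarith [sq_nonneg (κ - σ)]
  have e0 : 0 ≤ f0 + f1 * κ := by nlinarith
  rcases le_or_gt 0 f2 with h2 | h2
  · nlinarith
  · have : 0 ≤ f0 + f1 * κ + f2 * (17/12 - κ) := by nlinarith
    nlinarith

/-! ### positive semidefiniteness by congruence and diagonal dominance -/

/-- diagonally dominant 3×3 forms -/
theorem q3_dd {a b c d e f : ℝ}
    (h1 : |d| + |e| ≤ 2 * a) (h2 : |d| + |f| ≤ 2 * b) (h3 : |e| + |f| ≤ 2 * c) (x y w : ℝ) :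
    0 ≤ q3 a b c d e f x y w := by
  unfold q3
  have i1 : -(|d| * ((x^2 + y^2)/2)) ≤ d * (x * y) := by
    rcases abs_cases d with ⟨h, _⟩ | ⟨h, _⟩ <;> rw [h] <;>
      nlinarith [sq_nonneg (x - y), sq_nonneg (x + y)]
  have i2 : -(|e| * ((x^2 + w^2)/2)) ≤ e * (x * w) := by
    rcases abs_cases e with ⟨h, _⟩ | ⟨h, _⟩ <;> rw [h] <;>
      nlinarith [sq_nonneg (x - w), sq_nonneg (x + w)]
  have i3 : -(|f| * ((y^2 + w^2)/2)) ≤ f * (y * w) := by
    rcases abs_cases f with ⟨h, _⟩ | ⟨h, _⟩ <;> rw [h] <;>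
      nlinarith [sq_nonneg (y - w), sq_nonneg (y + w)]
  nlinarith [mul_le_mul_of_nonneg_right h1 (sq_nonneg x), mul_le_mul_of_nonneg_right h2 (sq_nonneg y),
    mul_le_mul_of_nonneg_right h3 (sq_nonneg w)]

/-- weighted diagonal dominance -/
theorem q3_wdd {a b c d e f s1 s2 s3 : ℝ} (p1 : 0 < s1) (p2 : 0 < s2) (p3 : 0 < s3)
    (h1 : |d| * s2 + |e| * s3 ≤ 2 * a * s1) (h2 : |d| * s1 + |f| * s3 ≤ 2 * b * s2)
    (h3 : |e| * s1 + |f| * s2 ≤ 2 * c * s3) (x y w : ℝ) :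
    0 ≤ q3 a b c d e f x y w := by
  have key := q3_dd (a := a * s1^2) (b := b * s2^2) (c := c * s3^2) (d := d * (s1 * s2))
    (e := e * (s1 * s3)) (f := f * (s2 * s3)) ?_ ?_ ?_ (x / s1) (y / s2) (w / s3)
  · have : q3 (a * s1^2) (b * s2^2) (c * s3^2) (d * (s1 * s2)) (e * (s1 * s3)) (f * (s2 * s3))
        (x / s1) (y / s2) (w / s3) = q3 a b c d e f x y w := by
      unfold q3
      field_simp
    rw [this] at key
    exact key
  · simp only [abs_mul, abs_of_pos p1, abs_of_pos p2, abs_of_pos p3]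
    nlinarith [mul_le_mul_of_nonneg_right h1 p1.le]
  · simp only [abs_mul, abs_of_pos p1, abs_of_pos p2, abs_of_pos p3]
    nlinarith [mul_le_mul_of_nonneg_right h2 p2.le]
  · simp only [abs_mul, abs_of_pos p1, abs_of_pos p2, abs_of_pos p3]
    nlinarith [mul_le_mul_of_nonneg_right h3 p3.le]

/-- positivity of a 3×3 form by a unit triangular congruence and weighted diagonal dominance -/
theorem q3_psd {a b c d e f : ℝ} (t1 t2 t3 s1 s2 s3 : ℝ) (p1 : 0 < s1) (p2 : 0 < s2)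
    (p3 : 0 < s3)
    (h1 : |2 * a * t1 + d| * s2 + |2 * a * t2 + d * t3 + e| * s3 ≤ 2 * a * s1)
    (h2 : |2 * a * t1 + d| * s1 +
      |2 * a * t1 * t2 + 2 * b * t3 + d * (t1 * t3 + t2) + e * t1 + f| * s3
        ≤ 2 * (a * t1^2 + b + d * t1) * s2)
    (h3 : |2 * a * t2 + d * t3 + e| * s1 +
      |2 * a * t1 * t2 + 2 * b * t3 + d * (t1 * t3 + t2) + e * t1 + f| * s2
        ≤ 2 * (a * t2^2 + b * t3^2 + c + d * (t2 * t3) + e * t2 + f * t3) * s3) (x y w : ℝ) :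
    0 ≤ q3 a b c d e f x y w := by
  have key := q3_wdd p1 p2 p3 h1 h2 h3 (x - t1 * (y - t3 * w) - t2 * w) (y - t3 * w) w
  have : q3 a (a * t1^2 + b + d * t1) (a * t2^2 + b * t3^2 + c + d * (t2 * t3) + e * t2 + f * t3)
      (2 * a * t1 + d) (2 * a * t2 + d * t3 + e)
      (2 * a * t1 * t2 + 2 * b * t3 + d * (t1 * t3 + t2) + e * t1 + f)
      (x - t1 * (y - t3 * w) - t2 * w) (y - t3 * w) w = q3 a b c d e f x y w := by
    unfold q3
    ring
  rw [this] at key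
  exact key

/-- multiplication of the form by a positive number -/
theorem q3_smul {k a b c d e f : ℝ} (hk : 0 < k)
    (H : ∀ x y w, 0 ≤ q3 (k * a) (k * b) (k * c) (k * d) (k * e) (k * f) x y w) (x y w : ℝ) :
    0 ≤ q3 a b c d e f x y w := by
  have h := H x y w
  have : q3 (k * a) (k * b) (k * c) (k * d) (k * e) (k * f) x y w = k * q3 a b c d e f x y w := by
    unfold q3; ring
  rw [this] at h
  exact nonneg_of_mul_nonneg_right h hk

/-- diagonal scaling of the variables -/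
theorem q3_scale {r1 r2 r3 a b c d e f : ℝ} (h1 : 0 < r1) (h2 : 0 < r2) (h3 : 0 < r3)
    (H : ∀ x y w, 0 ≤ q3 (r1^2 * a) (r2^2 * b) (r3^2 * c) (r1 * r2 * d) (r1 * r3 * e)
      (r2 * r3 * f) x y w) (x y w : ℝ) :
    0 ≤ q3 a b c d e f x y w := by
  have h := H (x / r1) (y / r2) (w / r3)
  have : q3 (r1^2 * a) (r2^2 * b) (r3^2 * c) (r1 * r2 * d) (r1 * r3 * e)
      (r2 * r3 * f) (x / r1) (y / r2) (w / r3) = q3 a b c d e f x y w := by
    unfold q3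
    field_simp
  rw [this] at h
  exact h

end Vale.Agent.P211.H129
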