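import Vale.Agent.P211.H129.Red

set_option linter.all false

/-! P211 (helper129): second reduction, with `z` eliminated (helper237's remark): the pointwise
integrand is bounded below by a scalar part at `κ = 1` and a 2×2 form in `(h,g)`, affine in
`p` and `κ`. -/

namespace Vale.Agent.P211.H129

/-- quadratic form in two real variables (off-diagonal coefficient not doubled) -/
noncomputable def q2 (a b d x y : ℝ) : ℝ := a * x^2 + b * y^2 + d * (x * y)

/-- coefficient of `|h|²` -/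
noncomputable def Rhh (c : Co) (e : Ex) (N M p m : ℝ) : ℝ :=
  (5/3) * (c.B0 + p * c.B1) + M * (c.B0M + p * c.B1M) + e.hh
    - p * ((7/24) / c.A * (c.AM + M * c.B1)^2 + (9/4) * N^4 / m * (3 * c.AM - M * c.B1)^2)
/-- coefficient of `|g|²` -/
noncomputable def Rgg (c : Co) (e : Ex) (N M p κ m : ℝ) : ℝ :=
  c.AN * (9 * N^2 * κ - 6 * N) + N * (c.C0N + p * c.C1N) + 3 * N^2 * c.C1 * (1 - N * κ) + e.gg
    - p * ((7/24) / c.A * (c.AN + N * c.C1)^2 + (9/4) * N^4 / m * (3 * c.AN - N * c.C1)^2)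
/-- coefficient of `h·g` -/
noncomputable def Rhg (c : Co) (e : Ex) (N M p κ m : ℝ) : ℝ :=
  c.AM * (9 * N^2 * κ - 6 * N) + M * (c.B0N + p * c.B1N) + 3 * N * M * c.B1 * (1 - N * κ)
    + N * (c.C0M + p * c.C1M) + e.gh
    - p * ((7/12) / c.A * (c.AN + N * c.C1) * (c.AM + M * c.B1)
      + (9/2) * N^4 / m * (3 * c.AM - M * c.B1) * (3 * c.AN - N * c.C1))

/-- one coordinate of the inequality -/
theorem coord2 (c : Co) (e : Ex) (N M p κ σ lam m u h g z : ℝ) (hA : 0 < c.A) (hp : 0 < p)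
    (hm : 0 < m) :
    q2 (Rhh c e N M p m) (Rgg c e N M p κ m + lam) (Rhg c e N M p κ m) h g ≤
    c.A * ((6/7) * (u * u) / p)
    + (c.AN * g + c.AM * h) * (u - 6 * N * g + 9 * N^2 * (κ * g + σ * z))
    + (c.B0 + p * c.B1) * ((5/3) * (h * h))
    + M * (((c.B0N + p * c.B1N) * g + (c.B0M + p * c.B1M) * h
        + c.B1 * (u + 3 * N * g - 3 * N^2 * (κ * g + σ * z))) * h)
    + N * (((c.C0N + p * c.C1N) * g + (c.C0M + p * c.C1M) * h
        + c.C1 * (u + 3 * N * g - 3 * N^2 * (κ * g + σ * z))) * g)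
    + (e.hh * (h * h) + e.gh * (g * h) + e.gg * (g * g)) + lam * (g * g)
    + m * σ^2 / p * (z * z) := by
  have key : 0 ≤ c.A * (6/7) / p *
      (u + (7/12) * (p / c.A) * ((c.AN + N * c.C1) * g + (c.AM + M * c.B1) * h))^2 := by
    positivity
  have key2 : 0 ≤ m / p * (σ * z + p / (2 * m) *
      (3 * N^2 * ((3 * c.AM - M * c.B1) * h + (3 * c.AN - N * c.C1) * g)))^2 := by
    positivity
  have hA' := hA.ne'
  have hp' := hp.ne'
  have hm' := hm.ne'
  have id : c.A * ((6/7) * (u * u) / p)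
    + (c.AN * g + c.AM * h) * (u - 6 * N * g + 9 * N^2 * (κ * g + σ * z))
    + (c.B0 + p * c.B1) * ((5/3) * (h * h))
    + M * (((c.B0N + p * c.B1N) * g + (c.B0M + p * c.B1M) * h
        + c.B1 * (u + 3 * N * g - 3 * N^2 * (κ * g + σ * z))) * h)
    + N * (((c.C0N + p * c.C1N) * g + (c.C0M + p * c.C1M) * h
        + c.C1 * (u + 3 * N * g - 3 * N^2 * (κ * g + σ * z))) * g)
    + (e.hh * (h * h) + e.gh * (g * h) + e.gg * (g * g)) + lam * (g * g)
    + m * σ^2 / p * (z * z) =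
    q2 (Rhh c e N M p m) (Rgg c e N M p κ m + lam) (Rhg c e N M p κ m) h g
     + c.A * (6/7) / p *
      (u + (7/12) * (p / c.A) * ((c.AN + N * c.C1) * g + (c.AM + M * c.B1) * h))^2
     + m / p * (σ * z + p / (2 * m) *
      (3 * N^2 * ((3 * c.AM - M * c.B1) * h + (3 * c.AN - N * c.C1) * g)))^2 := by
    unfold q2 Rhh Rgg Rhg
    field_simp
    ring
  rw [id]
  linarith

/-- the reduction to the scalar part and a 2×2 form -/
theorem RR_ge2 (c : Co) (e : Ex) (N M p κ σ lam m : ℝ) (u h g z : Fin 4 → ℝ) (hA : 0 < c.A)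
    (hp : 0 < p) (hlam : 0 ≤ lam) (hm : 0 < m) (hgz : dt g g + dt z z ≤ p) :
    Sc c e N M p (κ * N^3) - m * σ^2 - lam * p +
      ∑ i, q2 (Rhh c e N M p m) (Rgg c e N M p κ m + lam) (Rhg c e N M p κ m) (h i) (g i)
      ≤ RR c e N M p κ σ u h g z := by
  have hgg : 0 ≤ dt g g := Finset.sum_nonneg fun i _ => mul_self_nonneg _
  have hzz : 0 ≤ dt z z := Finset.sum_nonneg fun i _ => mul_self_nonneg _
  have h1 : lam * dt g g ≤ lam * p := mul_le_mul_of_nonneg_left (by linarith) hlam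
  have h1' : m * σ^2 / p * dt z z ≤ m * σ^2 := by
    have : m * σ^2 / p * dt z z ≤ m * σ^2 / p * p :=
      mul_le_mul_of_nonneg_left (by linarith) (by positivity)
    rwa [div_mul_cancel₀ _ hp.ne'] at this
  have h2 : ∑ i, q2 (Rhh c e N M p m) (Rgg c e N M p κ m + lam) (Rhg c e N M p κ m) (h i) (g i)
      ≤ ∑ i, (c.A * ((6/7) * (u i * u i) / p)
    + (c.AN * g i + c.AM * h i) * (u i - 6 * N * g i + 9 * N^2 * (κ * g i + σ * z i))
    + (c.B0 + p * c.B1) * ((5/3) * (h i * h i))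
    + M * (((c.B0N + p * c.B1N) * g i + (c.B0M + p * c.B1M) * h i
        + c.B1 * (u i + 3 * N * g i - 3 * N^2 * (κ * g i + σ * z i))) * h i)
    + N * (((c.C0N + p * c.C1N) * g i + (c.C0M + p * c.C1M) * h i
        + c.C1 * (u i + 3 * N * g i - 3 * N^2 * (κ * g i + σ * z i))) * g i)
    + (e.hh * (h i * h i) + e.gh * (g i * h i) + e.gg * (g i * g i))
    + lam * (g i * g i) + m * σ^2 / p * (z i * z i)) :=
    Finset.sum_le_sum fun i _ =>
      coord2 c e N M p κ σ lam m (u i) (h i) (g i) (z i) hA hp hm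
  have h3 : RR c e N M p κ σ u h g z + lam * dt g g + m * σ^2 / p * dt z z =
      Sc c e N M p (κ * N^3) + ∑ i, (c.A * ((6/7) * (u i * u i) / p)
    + (c.AN * g i + c.AM * h i) * (u i - 6 * N * g i + 9 * N^2 * (κ * g i + σ * z i))
    + (c.B0 + p * c.B1) * ((5/3) * (h i * h i))
    + M * (((c.B0N + p * c.B1N) * g i + (c.B0M + p * c.B1M) * h i
        + c.B1 * (u i + 3 * N * g i - 3 * N^2 * (κ * g i + σ * z i))) * h i)
    + N * (((c.C0N + p * c.C1N) * g i + (c.C0M + p * c.C1M) * h i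
        + c.C1 * (u i + 3 * N * g i - 3 * N^2 * (κ * g i + σ * z i))) * g i)
    + (e.hh * (h i * h i) + e.gh * (g i * h i) + e.gg * (g i * g i))
    + lam * (g i * g i) + m * σ^2 / p * (z i * z i)) := by
    unfold RR Sc dt
    simp only [Fin.sum_univ_four]
    ring
  linarith

/-- `κ` disappears from the scalar part -/
theorem Sc_kappa (c : Co) (e : Ex) (N M p κ σ m : ℝ) (hκ : κ^2 + σ^2 = 1)
    (hm : 0 ≤ m) (h2m : 2 * m ≤ N^3 * (6 * (c.C0 + p * c.C1) - 90 * c.A - e.ek)) :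
    Sc c e N M p (N^3) ≤ Sc c e N M p (κ * N^3) - m * σ^2 := by
  have k1 : κ ≤ 1 := by nlinarith
  have hs : σ^2 = 1 - κ^2 := by linarith
  have : Sc c e N M p (κ * N^3) - m * σ^2 - Sc c e N M p (N^3) =
      (1 - κ) * (N^3 * (6 * (c.C0 + p * c.C1) - 90 * c.A - e.ek) - m * (1 + κ)) := by
    rw [hs]; unfold Sc; ring
  have h3 : 0 ≤ (1 - κ) * (N^3 * (6 * (c.C0 + p * c.C1) - 90 * c.A - e.ek) - m * (1 + κ)) := by
    apply mul_nonneg (by linarith)
    nlinarith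
  linarith

/-- the reduction when `2 m ≤ N³ (6 C - 90 A - ek)`: scalar part at `κ = 1` only -/
theorem RR_ge3 (c : Co) (e : Ex) (N M p κ σ lam m : ℝ) (u h g z : Fin 4 → ℝ) (hA : 0 < c.A)
    (hp : 0 < p) (hlam : 0 ≤ lam) (hm : 0 < m) (hgz : dt g g + dt z z ≤ p)
    (hκ : κ^2 + σ^2 = 1)
    (h2m : 2 * m ≤ N^3 * (6 * (c.C0 + p * c.C1) - 90 * c.A - e.ek))
    (hQ : ∀ x y, 0 ≤ q2 (Rhh c e N M p m) (Rgg c e N M p κ m + lam) (Rhg c e N M p κ m) x y) :
    Sc c e N M p (N^3) - lam * p ≤ RR c e N M p κ σ u h g z := by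
  have h1 := RR_ge2 c e N M p κ σ lam m u h g z hA hp hlam hm hgz
  have h2 := Sc_kappa c e N M p κ σ m hκ hm.le h2m
  have h3 : 0 ≤ ∑ i, q2 (Rhh c e N M p m) (Rgg c e N M p κ m + lam) (Rhg c e N M p κ m)
      (h i) (g i) := Finset.sum_nonneg fun i _ => hQ _ _
  linarith

/-- the 2×2 form (with `l0 + l1 p`) as a function of `p, κ` -/
noncomputable def GG2 (c : Co) (e : Ex) (N M m l0 l1 : ℝ) (p κ x y : ℝ) : ℝ :=
  q2 (Rhh c e N M p m) (Rgg c e N M p κ m + (l0 + l1 * p)) (Rhg c e N M p κ m) x y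

theorem GG2_p (c : Co) (e : Ex) (N M m l0 l1 p κ x y : ℝ) :
    GG2 c e N M m l0 l1 p κ x y = GG2 c e N M m l0 l1 0 κ x y +
      (GG2 c e N M m l0 l1 1 κ x y - GG2 c e N M m l0 l1 0 κ x y) * p := by
  unfold GG2 q2 Rhh Rgg Rhg
  ring

theorem GG2_k (c : Co) (e : Ex) (N M m l0 l1 p κ x y : ℝ) :
    GG2 c e N M m l0 l1 p κ x y = GG2 c e N M m l0 l1 p 0 x y +
      (GG2 c e N M m l0 l1 p 1 x y - GG2 c e N M m l0 l1 p 0 x y) * κ := by
  unfold GG2 q2 Rhh Rgg Rhg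
  ring

/-- vertices in `κ` and `p` -/
theorem GG2_vert {c : Co} {e : Ex} {N M m l0 l1 p κ x y p0 p1 k0 k1 : ℝ}
    (h0 : p0 ≤ p) (h1 : p ≤ p1) (hk0 : k0 ≤ κ) (hk1 : κ ≤ k1)
    (H00 : 0 ≤ GG2 c e N M m l0 l1 p0 k0 x y) (H01 : 0 ≤ GG2 c e N M m l0 l1 p0 k1 x y)
    (H10 : 0 ≤ GG2 c e N M m l0 l1 p1 k0 x y) (H11 : 0 ≤ GG2 c e N M m l0 l1 p1 k1 x y) :
    0 ≤ GG2 c e N M m l0 l1 p κ x y := by
  have a0 : 0 ≤ GG2 c e N M m l0 l1 p k0 x y := by
    rw [GG2_p]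
    exact aff_Icc h0 h1 (by rw [← GG2_p]; exact H00) (by rw [← GG2_p]; exact H10)
  have a1 : 0 ≤ GG2 c e N M m l0 l1 p k1 x y := by
    rw [GG2_p]
    exact aff_Icc h0 h1 (by rw [← GG2_p]; exact H01) (by rw [← GG2_p]; exact H11)
  rw [GG2_k]
  exact aff_Icc hk0 hk1 (by rw [← GG2_k]; exact a0) (by rw [← GG2_k]; exact a1)

/-- positivity of a 2×2 form by diagonal dominance after a shear -/
theorem q2_psd {a b d : ℝ} (t s1 s2 : ℝ) (p1 : 0 < s1) (p2 : 0 < s2)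
    (h1 : |2 * a * t + d| * s2 ≤ 2 * a * s1)
    (h2 : |2 * a * t + d| * s1 ≤ 2 * (a * t^2 + b + d * t) * s2) (x y : ℝ) :
    0 ≤ q2 a b d x y := by
  have key : ∀ X Y : ℝ, 0 ≤ q2 a (a * t^2 + b + d * t) (2 * a * t + d) X Y := by
    intro X Y
    unfold q2
    have i1 : -(|2 * a * t + d| * ((X^2 * s2 / s1 + Y^2 * s1 / s2)/2)) ≤
        (2 * a * t + d) * (X * Y) := by
      have e1 : 2 * |X * Y| ≤ X^2 * s2 / s1 + Y^2 * s1 / s2 := by
        have : X^2 * s2 / s1 + Y^2 * s1 / s2 - 2 * |X * Y| =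
            (|X| * s2 - |Y| * s1)^2 / (s1 * s2) := by
          rw [abs_mul]
          field_simp
          rw [sub_sq, mul_pow, mul_pow, sq_abs, sq_abs]
          ring
        have : 0 ≤ (|X| * s2 - |Y| * s1)^2 / (s1 * s2) := by positivity
        linarith
      have e2 : -(|2 * a * t + d| * |X * Y|) ≤ (2 * a * t + d) * (X * Y) := by
        rw [← abs_mul]; exact neg_abs_le _
      nlinarith [mul_le_mul_of_nonneg_left e1 (abs_nonneg (2 * a * t + d))]
    have e3 : |2 * a * t + d| * (X^2 * s2 / s1) ≤ 2 * a * X^2 := by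
      have : |2 * a * t + d| * (X^2 * s2 / s1) = (|2 * a * t + d| * s2) * (X^2 / s1) := by ring
      rw [this]
      calc (|2 * a * t + d| * s2) * (X^2 / s1) ≤ (2 * a * s1) * (X^2 / s1) :=
            mul_le_mul_of_nonneg_right h1 (by positivity)
        _ = 2 * a * X^2 := by field_simp
    have e4 : |2 * a * t + d| * (Y^2 * s1 / s2) ≤ 2 * (a * t^2 + b + d * t) * Y^2 := by
      have : |2 * a * t + d| * (Y^2 * s1 / s2) = (|2 * a * t + d| * s1) * (Y^2 / s2) := by ring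
      rw [this]
      calc (|2 * a * t + d| * s1) * (Y^2 / s2) ≤ (2 * (a * t^2 + b + d * t) * s2) * (Y^2 / s2) :=
            mul_le_mul_of_nonneg_right h2 (by positivity)
        _ = 2 * (a * t^2 + b + d * t) * Y^2 := by field_simp
    nlinarith
  have h := key (x - t * y) y
  have : q2 a (a * t^2 + b + d * t) (2 * a * t + d) (x - t * y) y = q2 a b d x y := by
    unfold q2; ring
  rwa [this] at h

end Vale.Agent.P211.H129
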