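import Vale.Agent.P211.H129.C7

set_option linter.all false
set_option maxRecDepth 8000

/-! P211 (helper129): the tables of the corner chart: from the zero tests to `EqC7`. -/

namespace Vale.Agent.P211.H129

open Vale.Agent.P211 Vale.Agent.P211.S4 Vale.Agent.P211.H237 Vale.Agent.P211.H626

/-- `den x^n` -/
def gx (den : ℕ) (n : ℕ) : PE := .mul (.c den) (.pow .x n)
/-- `20 - 12 y²` -/
def chR : RE := RE.c 20 + RE.c (-12) * RE.y ^ 2

/-- the identities of the tables: `den x^k T_i = num * (...)` -/
def tC7 (s : En) (num den : ℕ) : List (ℕ × PE × RE) :=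
  [(0, gx den 6, RE.c (num * 1400) * s.uu),
  (1, gx den 4, RE.c (num * 700) * (chR * s.uh)),
  (2, gx den 5, RE.c (num * 700) * (chR * (s.ug + RE.c (-1) * s.uh))),
  (3, gx den 4, RE.c (num * 200) * (chR * s.hh0)),
  (4, gx den 2, RE.c (num * 200) * (chR ^ 2 * s.hh1)),
  (5, gx den 5, RE.c (num * 100) * (chR * ((s.hg0 + s.hgk) + RE.c (-2) * s.hh0))),
  (6, gx den 1, RE.c (num * -100) * (chR * s.hgk)),
  (7, gx den 3, RE.c (num * 100) * (chR ^ 2 * (s.hg1 + RE.c (-2) * s.hh1))),
  (8, gx den 3, RE.c (num * 100) * (chR * s.hz)),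
  (9, gx den 6, RE.c (num * 200) * (chR * (((s.hh0 + RE.c (-1) * s.hg0) + s.gg0) +
    (RE.c (-1) * s.hgk + s.ggk))) + RE.c num * (RE.x ^ 2 * (chR * (s.z10 + s.z11)))),
  (10, gx den 2, RE.c (num * 200) * (chR * (s.hgk + RE.c (-1) * s.ggk)) +
    RE.c (num * -1) * (RE.x ^ 2 * (chR * s.z11))),
  (11, gx den 4, RE.c (num * 200) * (chR ^ 2 * ((s.hh1 + RE.c (-1) * s.hg1) + s.gg1)) +
    RE.c num * (RE.x ^ 2 * (chR ^ 2 * s.z20))),
  (12, gx den 6, RE.c num * (s.z00 + s.z01)),
  (13, gx den 2, RE.c (num * -1) * s.z01),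
  (14, gx den 4, RE.c num * (chR * (s.z10 + s.z11))),
  (15, gx den 0, RE.c (num * -1) * (chR * s.z11)),
  (16, gx den 2, RE.c num * (chR ^ 2 * s.z20)),
  (17, gx den 4, RE.c (num * 100) * (chR * (s.gz + RE.c (-1) * s.hz))),
  (18, .c 1, RE.c 1),
  (19, .c 1, RE.c 2),
  (20, .c 1, RE.c (-1) * RE.x ^ 4),
  (21, .c 1, RE.c 2 * ((RE.c 1 + RE.c (-1) * RE.y ^ 2) ^ 2 * ((RE.c 24 * chC.n + RE.c 24) +
    RE.c (-12) * chC.m))),
  (22, .c 1, RE.c (-1728) * chC.n ^ 3)]

/-- the check of the tables -/
noncomputable def okC7 (s : En) (z : ZP) (T : Tab) (num den : ℕ) : Bool :=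
  Nat.ble T.cf.length 99 && (tC7 s num den).all fun t => zt z T t.1 t.2.1 t.2.2

theorem vals_none {T : Tab} {i : ℕ} (h : T.cf.length ≤ i) (x y : ℝ) : T.vals x y i = 0 := by
  have h1 : T.cf.getD i [] = [] := by
    rw [List.getD_eq_getElem?_getD, List.getElem?_eq_none h]; rfl
  rw [← Tab.rev_pol]
  unfold Tab.pol
  rw [h1]
  simp [rev, dot2]

theorem gx_ev (g n : ℕ) (X Y : ℝ) : (gx g n).ev X Y = g * X ^ n := by
  show ((g : ℤ) : ℝ) * X ^ n = _
  push_cast; ring
theorem val_chR (X Y : ℝ) : chR.val X Y = 20 - 12 * Y ^ 2 := by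
  unfold chR
  simp only [RE.val_add, RE.val_mul, RE.val_c, RE.val_pow, RE.val_y]
  push_cast; ring

theorem aux1 {a g n T b : ℝ} (hg : 0 < g) (hn : 0 < n) (hb : 0 < b)
    (h : g * b * T = n * a) : T = a / (g / n * b) := by
  rw [eq_div_iff (by positivity)]
  field_simp
  linarith

theorem aux2 {a g n T b : ℝ} (hg : 0 < g) (hn : 0 < n) (hb : 0 < b)
    (h : 2 * (g * b * T) = n * a) : T = a / (2 * (g / n) * b) := by
  rw [eq_div_iff (by positivity)]
  field_simp
  linarith

theorem aux0 {a g n T : ℝ} (hg : 0 < g) (hn : 0 < n) (h : g * T = n * a) : T = a / (g / n) := by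
  rw [eq_div_iff (by positivity)]
  field_simp
  linarith

theorem eqC7_of_ok {s : En} {z : ZP} {T : Tab} {num den : ℕ} (hn : 0 < num) (hd : 0 < den)
    (h : okC7 s z T num den = true) {t y N M : ℝ} (ht : 0 < t) (hA : s.At t y N M)
    (hC : chC.At t y N M) :
    EqC7 s (T.vals t y) N M t y (den / num) ∧
      T.vals t y 21 = 2 * (1 - y ^ 2) ^ 2 * (2 * (12 * N) + 24 - 12 * M) ∧
      T.vals t y 99 = 0 ∧ T.vals t y 22 = -(12 * N) ^ 3 := by
  unfold okC7 at h
  simp only [Bool.and_eq_true, Nat.ble_eq, List.all_eq_true] at h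
  obtain ⟨hl, htt⟩ := h
  have hn' : (0 : ℝ) < num := by exact_mod_cast hn
  have hd' : (0 : ℝ) < den := by exact_mod_cast hd
  have key : ∀ r ∈ tC7 s num den, r.2.1.ev t y * T.vals t y r.1 = r.2.2.val t y := fun r h1 =>
    zt_sound (htt r h1) t y
  clear htt
  refine ⟨?_, ?_, vals_none hl _ _, ?_⟩
  · refine ⟨by positivity, ?_, ?_, ?_, ?_, ?_, ?_, ?_, ?_, ?_, ?_, ?_, ?_, ?_, ?_, ?_, ?_, ?_, ?_, ?_, ?_, ?_⟩
    · have h1 := key _ (List.mem_of_getElem? (i := 0) rfl)
      simp only [gx_ev, RE.val_mul, RE.val_add, RE.val_pow, RE.val_c, val_chR, hA.uu] at h1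
      push_cast at h1
      refine aux1 hd' hn' (by positivity) ?_
      linear_combination h1
    · have h1 := key _ (List.mem_of_getElem? (i := 1) rfl)
      simp only [gx_ev, RE.val_mul, RE.val_add, RE.val_pow, RE.val_c, val_chR, hA.uh] at h1
      push_cast at h1
      refine aux2 hd' hn' (by positivity) ?_
      linear_combination 2 * h1
    · have h1 := key _ (List.mem_of_getElem? (i := 2) rfl)
      simp only [gx_ev, RE.val_mul, RE.val_add, RE.val_pow, RE.val_c, val_chR, hA.uh, hA.ug] at h1
      push_cast at h1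
      refine aux2 hd' hn' (by positivity) ?_
      linear_combination 2 * h1
    · have h1 := key _ (List.mem_of_getElem? (i := 3) rfl)
      simp only [gx_ev, RE.val_mul, RE.val_add, RE.val_pow, RE.val_c, val_chR, hA.hh0] at h1
      push_cast at h1
      unfold hh0
      refine aux1 hd' hn' (by positivity) ?_
      linear_combination h1
    · have h1 := key _ (List.mem_of_getElem? (i := 4) rfl)
      simp only [gx_ev, RE.val_mul, RE.val_add, RE.val_pow, RE.val_c, val_chR, hA.hh1] at h1
      push_cast at h1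
      unfold hh1
      refine aux1 hd' hn' (by positivity) ?_
      linear_combination h1
    · have h1 := key _ (List.mem_of_getElem? (i := 5) rfl)
      simp only [gx_ev, RE.val_mul, RE.val_add, RE.val_pow, RE.val_c, val_chR, hA.hg0, hA.hgk, hA.hh0] at h1
      push_cast at h1
      unfold hg0 hgk hh0
      refine aux2 hd' hn' (by positivity) ?_
      linear_combination 2 * h1
    · have h1 := key _ (List.mem_of_getElem? (i := 6) rfl)
      simp only [gx_ev, RE.val_mul, RE.val_add, RE.val_pow, RE.val_c, val_chR, hA.hgk] at h1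
      push_cast at h1
      unfold hgk
      refine aux2 hd' hn' ht ?_
      linear_combination 2 * h1
    · have h1 := key _ (List.mem_of_getElem? (i := 7) rfl)
      simp only [gx_ev, RE.val_mul, RE.val_add, RE.val_pow, RE.val_c, val_chR, hA.hg1, hA.hh1] at h1
      push_cast at h1
      unfold hg1 hh1
      refine aux2 hd' hn' (by positivity) ?_
      linear_combination 2 * h1
    · have h1 := key _ (List.mem_of_getElem? (i := 8) rfl)
      simp only [gx_ev, RE.val_mul, RE.val_add, RE.val_pow, RE.val_c, val_chR, hA.hz] at h1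
      push_cast at h1
      unfold hz
      refine aux2 hd' hn' (by positivity) ?_
      linear_combination 2 * h1
    · have h1 := key _ (List.mem_of_getElem? (i := 9) rfl)
      simp only [gx_ev, RE.val_mul, RE.val_add, RE.val_pow, RE.val_c, RE.val_x, val_chR, hA.hh0, hA.hg0, hA.gg0, hA.hgk, hA.ggk, hA.z10, hA.z11] at h1
      push_cast at h1
      have h2 := key _ (List.mem_of_getElem? (i := 14) rfl)
      simp only [gx_ev, RE.val_mul, RE.val_add, RE.val_pow, RE.val_c, val_chR, hA.z10, hA.z11] at h2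
      push_cast at h2
      unfold hh0 hg0 gg0 hgk ggk
      rw [← sub_eq_iff_eq_add]
      refine aux1 hd' hn' (by positivity) ?_
      linear_combination h1 - t ^ 2 * h2
    · have h1 := key _ (List.mem_of_getElem? (i := 10) rfl)
      simp only [gx_ev, RE.val_mul, RE.val_add, RE.val_pow, RE.val_c, RE.val_x, val_chR, hA.hgk, hA.ggk, hA.z11] at h1
      push_cast at h1
      have h2 := key _ (List.mem_of_getElem? (i := 15) rfl)
      simp only [gx_ev, RE.val_mul, RE.val_add, RE.val_pow, RE.val_c, val_chR, hA.z11] at h2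
      push_cast at h2
      unfold hgk ggk
      rw [← sub_eq_iff_eq_add]
      refine aux1 hd' hn' (by positivity) ?_
      linear_combination h1 - t ^ 2 * h2
    · have h1 := key _ (List.mem_of_getElem? (i := 11) rfl)
      simp only [gx_ev, RE.val_mul, RE.val_add, RE.val_pow, RE.val_c, RE.val_x, val_chR, hA.hh1, hA.hg1, hA.gg1, hA.z20] at h1
      push_cast at h1
      have h2 := key _ (List.mem_of_getElem? (i := 16) rfl)
      simp only [gx_ev, RE.val_mul, RE.val_add, RE.val_pow, RE.val_c, val_chR, hA.z20] at h2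
      push_cast at h2
      unfold hh1 hg1 gg1
      rw [← sub_eq_iff_eq_add]
      refine aux1 hd' hn' (by positivity) ?_
      linear_combination h1 - t ^ 2 * h2
    · have h1 := key _ (List.mem_of_getElem? (i := 12) rfl)
      simp only [gx_ev, RE.val_mul, RE.val_add, RE.val_pow, RE.val_c, val_chR, hA.z00, hA.z01] at h1
      push_cast at h1
      unfold z00 z01
      refine aux1 hd' hn' (by positivity) ?_
      linear_combination h1
    · have h1 := key _ (List.mem_of_getElem? (i := 13) rfl)
      simp only [gx_ev, RE.val_mul, RE.val_add, RE.val_pow, RE.val_c, val_chR, hA.z01] at h1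
      push_cast at h1
      unfold z01
      refine aux1 hd' hn' (by positivity) ?_
      linear_combination h1
    · have h1 := key _ (List.mem_of_getElem? (i := 14) rfl)
      simp only [gx_ev, RE.val_mul, RE.val_add, RE.val_pow, RE.val_c, val_chR, hA.z10, hA.z11] at h1
      push_cast at h1
      unfold z10 z11
      refine aux1 hd' hn' (by positivity) ?_
      linear_combination h1
    · have h1 := key _ (List.mem_of_getElem? (i := 15) rfl)
      simp only [gx_ev, RE.val_mul, RE.val_add, RE.val_pow, RE.val_c, val_chR, hA.z11] at h1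
      push_cast at h1
      unfold z11
      refine aux0 hd' hn' ?_
      linear_combination h1
    · have h1 := key _ (List.mem_of_getElem? (i := 16) rfl)
      simp only [gx_ev, RE.val_mul, RE.val_add, RE.val_pow, RE.val_c, val_chR, hA.z20] at h1
      push_cast at h1
      unfold z20
      refine aux1 hd' hn' (by positivity) ?_
      linear_combination h1
    · have h1 := key _ (List.mem_of_getElem? (i := 17) rfl)
      simp only [gx_ev, RE.val_mul, RE.val_add, RE.val_pow, RE.val_c, val_chR, hA.gz, hA.hz] at h1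
      push_cast at h1
      unfold gz hz
      refine aux2 hd' hn' (by positivity) ?_
      linear_combination 2 * h1
    · have h1 := key _ (List.mem_of_getElem? (i := 18) rfl)
      simp only [RE.val_c, PE.ev] at h1
      push_cast at h1
      linarith
    · have h1 := key _ (List.mem_of_getElem? (i := 19) rfl)
      simp only [RE.val_c, PE.ev] at h1
      push_cast at h1
      linarith
    · have h1 := key _ (List.mem_of_getElem? (i := 20) rfl)
      simp only [RE.val_mul, RE.val_pow, RE.val_c, RE.val_x, PE.ev] at h1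
      push_cast at h1
      linarith
  · have h1 := key _ (List.mem_of_getElem? (i := 21) rfl)
    simp only [RE.val_mul, RE.val_add, RE.val_pow, RE.val_c, RE.val_y, PE.ev, hC.n, hC.m] at h1
    push_cast at h1
    linear_combination h1
  · have h1 := key _ (List.mem_of_getElem? (i := 22) rfl)
    simp only [RE.val_mul, RE.val_pow, RE.val_c, PE.ev, hC.n] at h1
    push_cast at h1
    linear_combination h1

/-- **chart C of a vertex**: tables and good leaves give the scalar conditions for `Θ ≤ 1/4` -/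
theorem pwC7 {s : En} {z : ZP} {T : Tab} {num den : ℕ} (hs : s.h = chC) (hK : s.K = 3)
    (hok : s.ok = true) (hn : 0 < num) (hd : 0 < den) (h : okC7 s z T num den = true)
    (hg : ∀ x y P k : ℝ, 0 ≤ x → x ≤ 1 / 2 → -1 ≤ y → y ≤ 1 → 0 ≤ P → P ≤ 1 → 0 ≤ k →
      k ≤ 1 / 14 → idC7.Good (T.vals x y) P k) :
    ∀ N M p κ, Dom N M p κ → 0 < p → Tht N M ≤ 1 / 4 →
      PwX (s.co N M) (s.ex N M) N M p κ (s.dn / 30000 * (N ^ 2 * M ^ 2)) := by
  intro N M p κ hd' hp hT
  obtain ⟨t, y, P, k, t0, t1, y0, y1, P0, P1, k0, k1, ht, hN, hM, rfl, rfl, hk⟩ :=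
    chartC7 hd' hp hT
  have hC := chC_at hN hM
  have hA : s.At t y N M := ⟨hok, by rw [hs]; exact hC, by rw [← ht]; positivity⟩
  obtain ⟨e, e21, e99, e22⟩ := eqC7_of_ok hn hd h t0 hA hC
  exact pwx_of_goodC7 hA hK t0 ht.symm e (hg t y P k t0.le t1 y0 y1 P0.le P1 k0 k1)
    (consC7 e21 e99 e22 hk)

end Vale.Agent.P211.H129
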